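import Mathlib

/-!
Classes of functions with bounded Lipschitz derivative on a convex set, closed under products and
real powers; the Laplacian in terms of the second derivative.
-/

open Set Metric

namespace Vale.Agent.P100.H115

variable {E : Type*} [NormedAddCommGroup E] [NormedSpace ℝ E]

/-- bounded and Lipschitz on `W`. -/
structure C01 (W : Set E) (f : E → ℝ) (K : ℝ) : Prop where
  bd : ∀ x ∈ W, |f x| ≤ K
  lip : ∀ x ∈ W, ∀ y ∈ W, |f x - f y| ≤ K * ‖x - y‖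

/-- bounded with bounded and Lipschitz derivative on `W`. -/
structure C11 (W : Set E) (f : E → ℝ) (K : ℝ) : Prop where
  bd : ∀ x ∈ W, |f x| ≤ K
  df : ∀ x ∈ W, DifferentiableAt ℝ f x
  gr : ∀ x ∈ W, ‖fderiv ℝ f x‖ ≤ K
  lip : ∀ x ∈ W, ∀ y ∈ W, ‖fderiv ℝ f x - fderiv ℝ f y‖ ≤ K * ‖x - y‖

theorem lip_of_gr {W : Set E} (hW : Convex ℝ W) {f : E → ℝ} {K : ℝ}
    (df : ∀ x ∈ W, DifferentiableAt ℝ f x) (gr : ∀ x ∈ W, ‖fderiv ℝ f x‖ ≤ K)
    {x y : E} (hx : x ∈ W) (hy : y ∈ W) : |f x - f y| ≤ K * ‖x - y‖ := by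
  have := hW.norm_image_sub_le_of_norm_fderiv_le (𝕜 := ℝ) df gr hy hx
  rwa [Real.norm_eq_abs] at this

theorem C11.c01 {W : Set E} (hW : Convex ℝ W) {f : E → ℝ} {K : ℝ} (h : C11 W f K) :
    C01 W f K :=
  ⟨h.bd, fun _ hx _ hy => lip_of_gr hW h.df h.gr hx hy⟩

theorem C01.mono {W W' : Set E} (hW : W' ⊆ W) {f : E → ℝ} {K K' : ℝ} (h : C01 W f K)
    (hK : K ≤ K') : C01 W' f K' :=
  ⟨fun x hx => (h.bd x (hW hx)).trans hK, fun x hx y hy =>
    (h.lip x (hW hx) y (hW hy)).trans (mul_le_mul_of_nonneg_right hK (norm_nonneg _))⟩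

theorem C11.mono {W W' : Set E} (hW : W' ⊆ W) {f : E → ℝ} {K K' : ℝ} (h : C11 W f K)
    (hK : K ≤ K') : C11 W' f K' :=
  ⟨fun x hx => (h.bd x (hW hx)).trans hK, fun x hx => h.df x (hW hx),
    fun x hx => (h.gr x (hW hx)).trans hK, fun x hx y hy =>
    (h.lip x (hW hx) y (hW hy)).trans (mul_le_mul_of_nonneg_right hK (norm_nonneg _))⟩

theorem C01.mul {W : Set E} {f g : E → ℝ} {K L : ℝ} (hK : 0 ≤ K)
    (hf : C01 W f K) (hg : C01 W g L) : C01 W (fun x => f x * g x) (2 * (K * L)) := by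
  constructor
  · intro x hx
    have hL : 0 ≤ L := (abs_nonneg _).trans (hg.bd x hx)
    rw [abs_mul]
    have := mul_le_mul (hf.bd x hx) (hg.bd x hx) (abs_nonneg _) hK
    have h2 : 0 ≤ K * L := mul_nonneg hK hL
    linarith
  · intro x hx y hy
    have hL : 0 ≤ L := (abs_nonneg _).trans (hg.bd x hx)
    have h1 : f x * g x - f y * g y = (f x - f y) * g x + f y * (g x - g y) := by ring
    rw [h1]
    refine (abs_add_le _ _).trans ?_
    rw [abs_mul, abs_mul]
    have a1 : |f x - f y| * |g x| ≤ (K * ‖x - y‖) * L :=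
      mul_le_mul (hf.lip x hx y hy) (hg.bd x hx) (abs_nonneg _) (by positivity)
    have a2 : |f y| * |g x - g y| ≤ K * (L * ‖x - y‖) :=
      mul_le_mul (hf.bd y hy) (hg.lip x hx y hy) (abs_nonneg _) hK
    linarith

theorem C11.mul {W : Set E} (hW : Convex ℝ W) {f g : E → ℝ} {K L : ℝ} (hK : 0 ≤ K)
    (hf : C11 W f K) (hg : C11 W g L) : C11 W (fun x => f x * g x) (4 * (K * L)) := by
  have hfd : ∀ x ∈ W, fderiv ℝ (fun x => f x * g x) x
      = f x • fderiv ℝ g x + g x • fderiv ℝ f x := fun x hx =>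
    fderiv_fun_mul (hf.df x hx) (hg.df x hx)
  constructor
  · intro x hx
    have hL : 0 ≤ L := (abs_nonneg _).trans (hg.bd x hx)
    rw [abs_mul]
    have := mul_le_mul (hf.bd x hx) (hg.bd x hx) (abs_nonneg _) hK
    have h2 : 0 ≤ K * L := mul_nonneg hK hL
    linarith
  · intro x hx
    exact (hf.df x hx).mul (hg.df x hx)
  · intro x hx
    have hL : 0 ≤ L := (abs_nonneg _).trans (hg.bd x hx)
    rw [hfd x hx]
    refine (norm_add_le _ _).trans ?_
    rw [norm_smul, norm_smul, Real.norm_eq_abs, Real.norm_eq_abs]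
    have a1 := mul_le_mul (hf.bd x hx) (hg.gr x hx) (norm_nonneg _) hK
    have a2 := mul_le_mul (hg.bd x hx) (hf.gr x hx) (norm_nonneg _) hL
    have h2 : 0 ≤ K * L := mul_nonneg hK hL
    linarith
  · intro x hx y hy
    have hL : 0 ≤ L := (abs_nonneg _).trans (hg.bd x hx)
    rw [hfd x hx, hfd y hy]
    have h1 : f x • fderiv ℝ g x + g x • fderiv ℝ f x - (f y • fderiv ℝ g y + g y • fderiv ℝ f y)
        = ((f x - f y) • fderiv ℝ g x + f y • (fderiv ℝ g x - fderiv ℝ g y))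
          + ((g x - g y) • fderiv ℝ f x + g y • (fderiv ℝ f x - fderiv ℝ f y)) := by
      simp only [sub_smul, smul_sub]; abel
    rw [h1]
    have hl1 := lip_of_gr hW hf.df hf.gr hx hy
    have hl2 := lip_of_gr hW hg.df hg.gr hx hy
    have b1 : ‖(f x - f y) • fderiv ℝ g x‖ ≤ (K * ‖x - y‖) * L := by
      rw [norm_smul, Real.norm_eq_abs]
      exact mul_le_mul hl1 (hg.gr x hx) (norm_nonneg _) (by positivity)
    have b2 : ‖f y • (fderiv ℝ g x - fderiv ℝ g y)‖ ≤ K * (L * ‖x - y‖) := by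
      rw [norm_smul, Real.norm_eq_abs]
      exact mul_le_mul (hf.bd y hy) (hg.lip x hx y hy) (norm_nonneg _) hK
    have b3 : ‖(g x - g y) • fderiv ℝ f x‖ ≤ (L * ‖x - y‖) * K := by
      rw [norm_smul, Real.norm_eq_abs]
      exact mul_le_mul hl2 (hf.gr x hx) (norm_nonneg _) (by positivity)
    have b4 : ‖g y • (fderiv ℝ f x - fderiv ℝ f y)‖ ≤ L * (K * ‖x - y‖) := by
      rw [norm_smul, Real.norm_eq_abs]
      exact mul_le_mul (hg.bd y hy) (hf.lip x hx y hy) (norm_nonneg _) hL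
    refine (norm_add_le _ _).trans ((add_le_add (norm_add_le _ _) (norm_add_le _ _)).trans ?_)
    linarith

/-- bound for `t ^ s`, `m ≤ t ≤ K`. -/
theorem rpow_le_of_mem {m K s t : ℝ} (hm : 0 < m) (h1 : m ≤ t) (h2 : t ≤ K) :
    t ^ s ≤ m ^ s + K ^ s := by
  have ht : 0 < t := hm.trans_le h1
  have hK : 0 < K := ht.trans_le h2
  rcases le_total 0 s with hs | hs
  · have := Real.rpow_le_rpow ht.le h2 hs
    have := Real.rpow_nonneg hm.le s
    linarith
  · have := Real.rpow_le_rpow_of_nonpos hm h1 hs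
    have := Real.rpow_nonneg hK.le s
    linarith

/-- Lipschitz bound for `t ^ s`, `m ≤ t ≤ K`. -/
theorem rpow_lip {m K s a b : ℝ} (hm : 0 < m) (ha : m ≤ a) (haK : a ≤ K) (hb : m ≤ b)
    (hbK : b ≤ K) :
    |a ^ s - b ^ s| ≤ (|s| * (m ^ (s - 1) + K ^ (s - 1))) * |a - b| := by
  have hder : ∀ t ∈ Icc m K, HasDerivWithinAt (fun t : ℝ => t ^ s) (s * t ^ (s - 1)) (Icc m K) t :=
    fun t ht => (Real.hasDerivAt_rpow_const (Or.inl (hm.trans_le ht.1).ne')).hasDerivWithinAt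
  have hb' : ∀ t ∈ Icc m K, ‖s * t ^ (s - 1)‖ ≤ |s| * (m ^ (s - 1) + K ^ (s - 1)) := by
    intro t ht
    have ht0 : 0 < t := hm.trans_le ht.1
    rw [norm_mul, Real.norm_eq_abs, Real.norm_eq_abs, abs_of_pos (Real.rpow_pos_of_pos ht0 _)]
    exact mul_le_mul_of_nonneg_left (rpow_le_of_mem hm ht.1 ht.2) (abs_nonneg _)
  have := (convex_Icc m K).norm_image_sub_le_of_norm_hasDerivWithin_le hder hb' ⟨hb, hbK⟩ ⟨ha, haK⟩
  simpa [Real.norm_eq_abs] using this

theorem C01.rpow {m K p : ℝ} (hm : 0 < m) (hmK : m ≤ K) : ∃ K' : ℝ, 0 ≤ K' ∧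
    ∀ (W : Set E) (f : E → ℝ), C01 W f K → (∀ x ∈ W, m ≤ f x) →
      C01 W (fun x => f x ^ p) K' := by
  have hK : 0 < K := hm.trans_le hmK
  set P : ℝ → ℝ := fun s => m ^ s + K ^ s with hP
  have hP0 : ∀ s, 0 ≤ P s := fun s => by simp only [hP]; positivity
  refine ⟨P p + |p| * P (p - 1) * K, by have := hP0 p; have := hP0 (p - 1); positivity, ?_⟩
  intro W f hf hlow
  have hp0 := hP0 p
  have hp1 := hP0 (p - 1)
  have hup : ∀ x ∈ W, f x ≤ K := fun x hx => (le_abs_self _).trans (hf.bd x hx)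
  have hpos : ∀ x ∈ W, 0 < f x := fun x hx => hm.trans_le (hlow x hx)
  constructor
  · intro x hx
    rw [abs_of_pos (Real.rpow_pos_of_pos (hpos x hx) _)]
    have := rpow_le_of_mem (s := p) hm (hlow x hx) (hup x hx)
    have h3 : 0 ≤ |p| * P (p - 1) * K := by positivity
    simp only [hP] at *
    linarith
  · intro x hx y hy
    have h1 := rpow_lip (s := p) hm (hlow x hx) (hup x hx) (hlow y hy) (hup y hy)
    have h2 := hf.lip x hx y hy
    have h3 : (|p| * P (p - 1)) * |f x - f y| ≤ (|p| * P (p - 1)) * (K * ‖x - y‖) :=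
      mul_le_mul_of_nonneg_left h2 (by positivity)
    have h4 : 0 ≤ P p * ‖x - y‖ := by positivity
    simp only [hP] at *
    nlinarith

theorem C11.rpow {m K p : ℝ} (hm : 0 < m) (hmK : m ≤ K) : ∃ K' : ℝ, 0 ≤ K' ∧
    ∀ (W : Set E) (f : E → ℝ), Convex ℝ W → C11 W f K → (∀ x ∈ W, m ≤ f x) →
      C11 W (fun x => f x ^ p) K' := by
  have hK : 0 < K := hm.trans_le hmK
  set P : ℝ → ℝ := fun s => m ^ s + K ^ s with hP
  have hP0 : ∀ s, 0 ≤ P s := fun s => by simp only [hP]; positivity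
  have hp0 := hP0 p
  have hp1 := hP0 (p - 1)
  have hp2 := hP0 (p - 1 - 1)
  refine ⟨P p + |p| * P (p - 1) * K + |p| * (|p - 1| * P (p - 1 - 1) * K) * K, by positivity, ?_⟩
  intro W f hW hf hlow
  have hup : ∀ x ∈ W, f x ≤ K := fun x hx => (le_abs_self _).trans (hf.bd x hx)
  have hpos : ∀ x ∈ W, 0 < f x := fun x hx => hm.trans_le (hlow x hx)
  have hfd : ∀ x ∈ W, HasFDerivAt (fun x => f x ^ p) ((p * f x ^ (p - 1)) • fderiv ℝ f x) x :=
    fun x hx => (hf.df x hx).hasFDerivAt.rpow_const (Or.inl (hpos x hx).ne')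
  have hA : 0 ≤ |p| * P (p - 1) * K := by positivity
  have hB : 0 ≤ |p| * (|p - 1| * P (p - 1 - 1) * K) * K := by positivity
  constructor
  · intro x hx
    rw [abs_of_pos (Real.rpow_pos_of_pos (hpos x hx) _)]
    have := rpow_le_of_mem (s := p) hm (hlow x hx) (hup x hx)
    simp only [hP] at *
    linarith
  · intro x hx
    exact (hfd x hx).differentiableAt
  · intro x hx
    rw [(hfd x hx).fderiv, norm_smul, norm_mul, Real.norm_eq_abs, Real.norm_eq_abs,
      abs_of_pos (Real.rpow_pos_of_pos (hpos x hx) _)]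
    have h1 := rpow_le_of_mem (s := p - 1) hm (hlow x hx) (hup x hx)
    have h2 : |p| * f x ^ (p - 1) ≤ |p| * P (p - 1) := mul_le_mul_of_nonneg_left h1 (abs_nonneg _)
    have h3 : |p| * f x ^ (p - 1) * ‖fderiv ℝ f x‖ ≤ |p| * P (p - 1) * K :=
      mul_le_mul h2 (hf.gr x hx) (norm_nonneg _) (by positivity)
    linarith
  · intro x hx y hy
    rw [(hfd x hx).fderiv, (hfd y hy).fderiv]
    have h0 : (p * f x ^ (p - 1)) • fderiv ℝ f x - (p * f y ^ (p - 1)) • fderiv ℝ f y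
        = (p * (f x ^ (p - 1) - f y ^ (p - 1))) • fderiv ℝ f x
          + (p * f y ^ (p - 1)) • (fderiv ℝ f x - fderiv ℝ f y) := by
      simp only [mul_sub, sub_smul, smul_sub]; abel
    rw [h0]
    have hl := lip_of_gr hW hf.df hf.gr hx hy
    have h1 := rpow_lip (s := p - 1) hm (hlow x hx) (hup x hx) (hlow y hy) (hup y hy)
    have h2 : |f x ^ (p - 1) - f y ^ (p - 1)| ≤ (|p - 1| * P (p - 1 - 1)) * (K * ‖x - y‖) :=
      h1.trans (mul_le_mul_of_nonneg_left hl (by positivity))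
    have b1 : ‖(p * (f x ^ (p - 1) - f y ^ (p - 1))) • fderiv ℝ f x‖
        ≤ (|p| * ((|p - 1| * P (p - 1 - 1)) * (K * ‖x - y‖))) * K := by
      rw [norm_smul, norm_mul, Real.norm_eq_abs, Real.norm_eq_abs]
      exact mul_le_mul (mul_le_mul_of_nonneg_left h2 (abs_nonneg _)) (hf.gr x hx)
        (norm_nonneg _) (by positivity)
    have b2 : ‖(p * f y ^ (p - 1)) • (fderiv ℝ f x - fderiv ℝ f y)‖
        ≤ (|p| * P (p - 1)) * (K * ‖x - y‖) := by
      rw [norm_smul, norm_mul, Real.norm_eq_abs, Real.norm_eq_abs,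
        abs_of_pos (Real.rpow_pos_of_pos (hpos y hy) _)]
      exact mul_le_mul (mul_le_mul_of_nonneg_left
        (rpow_le_of_mem (s := p - 1) hm (hlow y hy) (hup y hy)) (abs_nonneg _))
        (hf.lip x hx y hy) (norm_nonneg _) (by positivity)
    refine (norm_add_le _ _).trans ((add_le_add b1 b2).trans ?_)
    have h5 : 0 ≤ P p * ‖x - y‖ := by positivity
    nlinarith

end Vale.Agent.P100.H115
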