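import Mathlib

namespace Vale.Agent.P100

/-- `(u, v)` is a nonnegative classical solution of the Henon-Lane-Emden system
`-Δ u = |x|^A v^p`, `-Δ v = |x|^B u^q` on the open set `Ω` of `ℝ^n`. -/
structure IsNonnegSolutionOn (n : ℕ) (p q A B : ℝ) (Ω : Set (EuclideanSpace ℝ (Fin n)))
    (u v : EuclideanSpace ℝ (Fin n) → ℝ) : Prop where
  contDiffOn_u : ContDiffOn ℝ 2 u Ω
  contDiffOn_v : ContDiffOn ℝ 2 v Ω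
  nonneg_u : ∀ x ∈ Ω, 0 ≤ u x
  nonneg_v : ∀ x ∈ Ω, 0 ≤ v x
  eq_u : ∀ x ∈ Ω, -(Laplacian.laplacian u x) = ‖x‖ ^ A * v x ^ p
  eq_v : ∀ x ∈ Ω, -(Laplacian.laplacian v x) = ‖x‖ ^ B * u x ^ q

/-- The four bounds at the point `x`, with `α = 2(p+1)/(pq-1)` and `β = 2(q+1)/(pq-1)`:
`u(x) ≤ a d^(-α)`, `v(x) ≤ b d^(-β)`, `|∇u(x)| ≤ a d^(-α-1)`, `|∇v(x)| ≤ b d^(-β-1)`. -/
def Bounds {n : ℕ} (p q : ℝ) (u v : EuclideanSpace ℝ (Fin n) → ℝ)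
    (x : EuclideanSpace ℝ (Fin n)) (a b d : ℝ) : Prop :=
  u x ≤ a * d ^ (-(2 * (p + 1) / (p * q - 1))) ∧
  v x ≤ b * d ^ (-(2 * (q + 1) / (p * q - 1))) ∧
  ‖fderiv ℝ u x‖ ≤ a * d ^ (-(2 * (p + 1) / (p * q - 1)) - 1) ∧
  ‖fderiv ℝ v x‖ ≤ b * d ^ (-(2 * (q + 1) / (p * q - 1)) - 1)

end Vale.Agent.P100
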