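import Vale.Agent.P100.H115.C11
import Vale.Agent.P100.H115.Defs

/-!
From the local bound on balls (with Lipschitz coefficients) to the universal estimates on
arbitrary domains.
-/

open Set Metric

namespace Vale.Agent.P100.H115

/-- The local universal bound on balls. -/
def LocalBound (n : ℕ) (p q : ℝ) : Prop :=
  ∀ Λ : ℝ, 1 ≤ Λ → ∃ C : ℝ, 0 < C ∧ ∀ (x0 : EuclideanSpace ℝ (Fin n)) (R : ℝ), 0 < R →
    ∀ a b u v : EuclideanSpace ℝ (Fin n) → ℝ,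
    ContDiffOn ℝ 2 u (ball x0 R) → ContDiffOn ℝ 2 v (ball x0 R) →
    (∀ x ∈ ball x0 R, 0 ≤ u x ∧ 0 ≤ v x) →
    (∀ x ∈ ball x0 R, Λ⁻¹ ≤ a x ∧ a x ≤ Λ ∧ Λ⁻¹ ≤ b x ∧ b x ≤ Λ) →
    (∀ x ∈ ball x0 R, ∀ y ∈ ball x0 R, |a x - a y| ≤ Λ * (‖x - y‖ / R) ∧
      |b x - b y| ≤ Λ * (‖x - y‖ / R)) →
    (∀ x ∈ ball x0 R, -(Laplacian.laplacian u x) = a x * v x ^ p ∧
      -(Laplacian.laplacian v x) = b x * u x ^ q) →
    u x0 ≤ C * R ^ (-(2 * (p + 1) / (p * q - 1))) ∧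
    v x0 ≤ C * R ^ (-(2 * (q + 1) / (p * q - 1))) ∧
    ‖fderiv ℝ u x0‖ ≤ C * R ^ (-(2 * (p + 1) / (p * q - 1)) - 1) ∧
    ‖fderiv ℝ v x0‖ ≤ C * R ^ (-(2 * (q + 1) / (p * q - 1)) - 1)

variable {n : ℕ} {p q : ℝ}

theorem ball_sub {Ω : Set (EuclideanSpace ℝ (Fin n))} {x : EuclideanSpace ℝ (Fin n)} :
    ball x (infDist x Ωᶜ) ⊆ Ω := ball_infDist_compl_subset

theorem dist_pos' {Ω : Set (EuclideanSpace ℝ (Fin n))} (hΩ : IsOpen Ω) (hne : Ω ≠ univ)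
    {x : EuclideanSpace ℝ (Fin n)} (hx : x ∈ Ω) : 0 < infDist x Ωᶜ := by
  have h1 : (Ωᶜ).Nonempty := nonempty_compl.2 hne
  exact (hΩ.isClosed_compl.notMem_iff_infDist_pos h1).1 (fun h => h hx)

/-- Unweighted case: every domain. -/
theorem unweighted (hLB : LocalBound n p q) : ∃ C : ℝ, 0 < C ∧
    ∀ (Ω : Set (EuclideanSpace ℝ (Fin n))) (u v : EuclideanSpace ℝ (Fin n) → ℝ),
    IsOpen Ω → Ω ≠ univ → IsNonnegSolutionOn n p q 0 0 Ω u v → ∀ x ∈ Ω,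
    u x ≤ C * infDist x Ωᶜ ^ (-(2 * (p + 1) / (p * q - 1))) ∧
    v x ≤ C * infDist x Ωᶜ ^ (-(2 * (q + 1) / (p * q - 1))) ∧
    ‖fderiv ℝ u x‖ ≤ C * infDist x Ωᶜ ^ (-(2 * (p + 1) / (p * q - 1)) - 1) ∧
    ‖fderiv ℝ v x‖ ≤ C * infDist x Ωᶜ ^ (-(2 * (q + 1) / (p * q - 1)) - 1) := by
  obtain ⟨C, hC, h⟩ := hLB 1 le_rfl
  refine ⟨C, hC, fun Ω u v hΩ hne hs x hx => ?_⟩
  have hd := dist_pos' hΩ hne hx
  have hsub : ball x (infDist x Ωᶜ) ⊆ Ω := ball_sub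
  refine h x (infDist x Ωᶜ) hd (fun _ => 1) (fun _ => 1) u v (hs.contDiffOn_u.mono hsub)
    (hs.contDiffOn_v.mono hsub) (fun y hy => ⟨hs.nonneg_u y (hsub hy), hs.nonneg_v y (hsub hy)⟩)
    (fun y _ => by norm_num) (fun y _ z _ => ?_) (fun y hy => ?_)
  · simp only [sub_self, abs_zero, one_mul]
    exact ⟨by positivity, by positivity⟩
  · have h1 := hs.eq_u y (hsub hy)
    have h2 := hs.eq_v y (hsub hy)
    rw [Real.rpow_zero] at h1 h2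
    exact ⟨h1, h2⟩

/-- the coefficient `(|y| / ρ) ^ s` for `ρ / 2 ≤ |y| ≤ 2 ρ`. -/
theorem coef_bd (s : ℝ) : ∃ L : ℝ, 1 ≤ L ∧ ∀ r r' : ℝ, 1 / 2 ≤ r → r ≤ 2 → 1 / 2 ≤ r' → r' ≤ 2 →
    L⁻¹ ≤ r ^ s ∧ r ^ s ≤ L ∧ |r ^ s - r' ^ s| ≤ L * |r - r'| := by
  set a : ℝ := (1 / 2 : ℝ) ^ s + 2 ^ s with ha
  set b : ℝ := (1 / 2 : ℝ) ^ (-s) + 2 ^ (-s) with hb
  set c : ℝ := |s| * ((1 / 2 : ℝ) ^ (s - 1) + 2 ^ (s - 1)) with hc
  have ha0 : 0 < a := by rw [ha]; positivity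
  have hb0 : 0 < b := by rw [hb]; positivity
  have hc0 : 0 ≤ c := by rw [hc]; positivity
  refine ⟨1 + a + b + c, by linarith, fun r r' h1 h2 h3 h4 => ?_⟩
  have hr : 0 < r := by linarith
  have e1 := rpow_le_of_mem (s := s) (by norm_num) h1 h2
  have e2 := rpow_le_of_mem (s := -s) (by norm_num) h1 h2
  have e3 := rpow_lip (s := s) (by norm_num) h1 h2 h3 h4
  refine ⟨?_, by linarith, e3.trans (mul_le_mul_of_nonneg_right (by linarith) (abs_nonneg _))⟩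
  rw [Real.rpow_neg hr.le] at e2
  have hp0 : 0 < r ^ s := Real.rpow_pos_of_pos hr s
  rw [inv_le_comm₀ (by positivity) hp0]
  linarith

/-- Weighted case: every domain not containing the origin. -/
theorem weighted (hLB : LocalBound n p q) (hpq : 1 < p * q) (A B : ℝ) : ∃ C : ℝ, 0 < C ∧
    ∀ (Ω : Set (EuclideanSpace ℝ (Fin n))) (u v : EuclideanSpace ℝ (Fin n) → ℝ),
    IsOpen Ω → 0 ∉ Ω → IsNonnegSolutionOn n p q A B Ω u v → ∀ x ∈ Ω,
    u x ≤ C * ‖x‖ ^ (-((A + B * p) / (p * q - 1))) *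
      infDist x Ωᶜ ^ (-(2 * (p + 1) / (p * q - 1))) ∧
    v x ≤ C * ‖x‖ ^ (-((B + A * q) / (p * q - 1))) *
      infDist x Ωᶜ ^ (-(2 * (q + 1) / (p * q - 1))) ∧
    ‖fderiv ℝ u x‖ ≤ C * ‖x‖ ^ (-((A + B * p) / (p * q - 1))) *
      infDist x Ωᶜ ^ (-(2 * (p + 1) / (p * q - 1)) - 1) ∧
    ‖fderiv ℝ v x‖ ≤ C * ‖x‖ ^ (-((B + A * q) / (p * q - 1))) *
      infDist x Ωᶜ ^ (-(2 * (q + 1) / (p * q - 1)) - 1) := by
  obtain ⟨LA, hLA1, hLA⟩ := coef_bd A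
  obtain ⟨LB, hLB1, hLB'⟩ := coef_bd B
  obtain ⟨C, hC, h⟩ := hLB (LA + LB) (by linarith)
  have hD : 0 < p * q - 1 := by linarith
  set α : ℝ := 2 * (p + 1) / (p * q - 1) with hα
  set β : ℝ := 2 * (q + 1) / (p * q - 1) with hβ
  set σ : ℝ := (A + B * p) / (p * q - 1) with hσ
  set τ : ℝ := (B + A * q) / (p * q - 1) with hτ
  have hστ : σ + A = τ * p := by
    rw [hσ, hτ, div_add' _ _ _ hD.ne', div_mul_eq_mul_div]; congr 1; ring
  have hτσ : τ + B = σ * q := by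
    rw [hσ, hτ, div_add' _ _ _ hD.ne', div_mul_eq_mul_div]; congr 1; ring
  set P : ℝ := (1 / 2 : ℝ) ^ (-α) + (1 / 2 : ℝ) ^ (-β) + (1 / 2 : ℝ) ^ (-α - 1)
    + (1 / 2 : ℝ) ^ (-β - 1) with hP
  have hP0 : 0 < P := by rw [hP]; positivity
  refine ⟨C * P, by positivity, fun Ω u v hΩ h0 hs x hx => ?_⟩
  have hne : Ω ≠ univ := fun hh => h0 (hh ▸ mem_univ _)
  set d := infDist x Ωᶜ with hd
  have hd0 : 0 < d := dist_pos' hΩ hne hx
  have hsub : ball x d ⊆ Ω := ball_sub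
  have hx0 : x ≠ 0 := fun hh => h0 (hh ▸ hx)
  set ρ : ℝ := ‖x‖ with hρ
  have hρ0 : 0 < ρ := norm_pos_iff.2 hx0
  have hdρ : d ≤ ρ := by
    have := infDist_le_dist_of_mem (x := x) (s := Ωᶜ) (y := 0) h0
    rwa [dist_zero_right] at this
  have hR : 0 < d / 2 := by positivity
  have hsub2 : ball x (d / 2) ⊆ Ω := (ball_subset_ball (by linarith)).trans hsub
  -- the norms in the ball
  have hnorm : ∀ y ∈ ball x (d / 2), 1 / 2 ≤ ‖y‖ / ρ ∧ ‖y‖ / ρ ≤ 2 := by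
    intro y hy
    rw [mem_ball, dist_eq_norm] at hy
    have h1 : ‖y‖ ≤ ‖y - x‖ + ρ := by simpa using norm_add_le (y - x) x
    have h2 : ρ ≤ ‖y‖ + ‖y - x‖ := by
      have := norm_sub_le y (y - x)
      rwa [sub_sub_cancel] at this
    constructor
    · rw [le_div_iff₀ hρ0]; linarith
    · rw [div_le_iff₀ hρ0]; linarith
  have hlipn : ∀ y ∈ ball x (d / 2), ∀ z ∈ ball x (d / 2),
      |‖y‖ / ρ - ‖z‖ / ρ| ≤ ‖y - z‖ / (d / 2) := by
    intro y _ z _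
    rw [← sub_div, abs_div, abs_of_pos hρ0]
    have h1 := abs_norm_sub_norm_le y z
    exact div_le_div₀ (norm_nonneg _) h1 hR (by linarith)
  have hsp : 0 < ρ ^ σ := Real.rpow_pos_of_pos hρ0 _
  have htp : 0 < ρ ^ τ := Real.rpow_pos_of_pos hρ0 _
  have hlapc : ∀ (c : ℝ) (w : EuclideanSpace ℝ (Fin n) → ℝ) (y : EuclideanSpace ℝ (Fin n)),
      ContDiffAt ℝ 2 w y →
      Laplacian.laplacian (fun z => c * w z) y = c * Laplacian.laplacian w y := by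
    intro c w y hw
    exact InnerProductSpace.laplacian_smul c hw
  have key := h x (d / 2) hR (fun y => (‖y‖ / ρ) ^ A) (fun y => (‖y‖ / ρ) ^ B)
    (fun y => ρ ^ σ * u y) (fun y => ρ ^ τ * v y)
    (contDiffOn_const.mul (hs.contDiffOn_u.mono hsub2))
    (contDiffOn_const.mul (hs.contDiffOn_v.mono hsub2))
    (fun y hy => ⟨mul_nonneg hsp.le (hs.nonneg_u y (hsub2 hy)),
      mul_nonneg htp.le (hs.nonneg_v y (hsub2 hy))⟩)
    (fun y hy => by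
      obtain ⟨h1, h2⟩ := hnorm y hy
      obtain ⟨a1, a2, _⟩ := hLA _ _ h1 h2 h1 h2
      obtain ⟨b1, b2, _⟩ := hLB' _ _ h1 h2 h1 h2
      have i1 : (LA + LB)⁻¹ ≤ LA⁻¹ := inv_anti₀ (by linarith) (by linarith)
      have i2 : (LA + LB)⁻¹ ≤ LB⁻¹ := inv_anti₀ (by linarith) (by linarith)
      exact ⟨by linarith, by linarith, by linarith, by linarith⟩)
    (fun y hy z hz => by
      obtain ⟨h1, h2⟩ := hnorm y hy
      obtain ⟨h3, h4⟩ := hnorm z hz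
      obtain ⟨_, _, a3⟩ := hLA _ _ h1 h2 h3 h4
      obtain ⟨_, _, b3⟩ := hLB' _ _ h1 h2 h3 h4
      have h5 := hlipn y hy z hz
      have h6 : 0 ≤ ‖y - z‖ / (d / 2) := by positivity
      constructor
      · refine a3.trans ?_
        exact mul_le_mul (by linarith) h5 (abs_nonneg _) (by linarith)
      · refine b3.trans ?_
        exact mul_le_mul (by linarith) h5 (abs_nonneg _) (by linarith))
    (fun y hy => by
      have hyΩ := hsub2 hy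
      have cu := hs.contDiffOn_u.contDiffAt (hΩ.mem_nhds hyΩ)
      have cv := hs.contDiffOn_v.contDiffAt (hΩ.mem_nhds hyΩ)
      have n1 := hs.nonneg_u y hyΩ
      have n2 := hs.nonneg_v y hyΩ
      have e1 := hs.eq_u y hyΩ
      have e2 := hs.eq_v y hyΩ
      rw [hlapc _ _ _ cu, hlapc _ _ _ cv]
      constructor
      · rw [← mul_neg, e1, Real.mul_rpow htp.le n2, ← Real.rpow_mul hρ0.le, ← hστ,
          Real.rpow_add hρ0, Real.div_rpow (norm_nonneg _) hρ0.le]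
        have : (0 : ℝ) < ρ ^ A := Real.rpow_pos_of_pos hρ0 _
        field_simp
      · rw [← mul_neg, e2, Real.mul_rpow hsp.le n1, ← Real.rpow_mul hρ0.le, ← hτσ,
          Real.rpow_add hρ0, Real.div_rpow (norm_nonneg _) hρ0.le]
        have : (0 : ℝ) < ρ ^ B := Real.rpow_pos_of_pos hρ0 _
        field_simp)
  obtain ⟨k1, k2, k3, k4⟩ := key
  have cu := hs.contDiffOn_u.contDiffAt (hΩ.mem_nhds hx)
  have cv := hs.contDiffOn_v.contDiffAt (hΩ.mem_nhds hx)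
  have hhalf : ∀ e : ℝ, (d / 2) ^ e = (1 / 2 : ℝ) ^ e * d ^ e := by
    intro e
    rw [show d / 2 = (1 / 2) * d by ring, Real.mul_rpow (by norm_num) hd0.le]
  have fin : ∀ (e κ X : ℝ), (1 / 2 : ℝ) ^ e ≤ P → ρ ^ κ * X ≤ C * (d / 2) ^ e →
      X ≤ C * P * ρ ^ (-κ) * d ^ e := by
    intro e κ X he hX
    have hκ : 0 < ρ ^ κ := Real.rpow_pos_of_pos hρ0 _
    have hde : 0 < d ^ e := Real.rpow_pos_of_pos hd0 _
    rw [hhalf] at hX
    have h1 : C * ((1 / 2 : ℝ) ^ e * d ^ e) ≤ C * (P * d ^ e) :=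
      mul_le_mul_of_nonneg_left (mul_le_mul_of_nonneg_right he hde.le) hC.le
    have h2 : X ≤ (C * (P * d ^ e)) / ρ ^ κ := by
      rw [le_div_iff₀ hκ]; linarith
    rw [Real.rpow_neg hρ0.le]
    refine h2.trans (le_of_eq ?_)
    field_simp
  have q1 : 0 < (1 / 2 : ℝ) ^ (-α) := by positivity
  have q2 : 0 < (1 / 2 : ℝ) ^ (-β) := by positivity
  have q3 : 0 < (1 / 2 : ℝ) ^ (-α - 1) := by positivity
  have q4 : 0 < (1 / 2 : ℝ) ^ (-β - 1) := by positivity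
  have hfc : ∀ (c : ℝ) (w : EuclideanSpace ℝ (Fin n) → ℝ), 0 < c → DifferentiableAt ℝ w x →
      ‖fderiv ℝ (fun z => c * w z) x‖ = c * ‖fderiv ℝ w x‖ := by
    intro c w hc hw
    rw [fderiv_const_mul hw, norm_smul, Real.norm_eq_abs, abs_of_pos hc]
  rw [hfc _ _ hsp (cu.differentiableAt (by norm_num))] at k3
  rw [hfc _ _ htp (cv.differentiableAt (by norm_num))] at k4
  refine ⟨fin _ _ _ ?_ k1, fin _ _ _ ?_ k2, fin _ _ _ ?_ k3, fin _ _ _ ?_ k4⟩ <;>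
    · rw [hP]; linarith

/-- Points at distance at least `|x| / 2` from the boundary. -/
theorem near (hLB : LocalBound n p q) (hp : 0 < p) (hq : 0 < q) (hpq : 1 < p * q) (A B : ℝ) :
    ∃ C : ℝ, 0 < C ∧
    ∀ (Ω : Set (EuclideanSpace ℝ (Fin n))) (u v : EuclideanSpace ℝ (Fin n) → ℝ),
    IsOpen Ω → 0 ∉ Ω → IsNonnegSolutionOn n p q A B Ω u v → ∀ x ∈ Ω, ‖x‖ / 2 ≤ infDist x Ωᶜ →
    u x ≤ C * ‖x‖ ^ (-((2 * (p + 1) + A + B * p) / (p * q - 1))) ∧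
    v x ≤ C * ‖x‖ ^ (-((2 * (q + 1) + B + A * q) / (p * q - 1))) ∧
    ‖fderiv ℝ u x‖ ≤ C * ‖x‖ ^ (-((2 * (p + 1) + A + B * p) / (p * q - 1)) - 1) ∧
    ‖fderiv ℝ v x‖ ≤ C * ‖x‖ ^ (-((2 * (q + 1) + B + A * q) / (p * q - 1)) - 1) := by
  obtain ⟨C, hC, h⟩ := weighted hLB hpq A B
  have hD : 0 < p * q - 1 := by linarith
  have hα : 0 < 2 * (p + 1) / (p * q - 1) := by positivity
  have hβ : 0 < 2 * (q + 1) / (p * q - 1) := by positivity
  set α : ℝ := 2 * (p + 1) / (p * q - 1) with hαd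
  set β : ℝ := 2 * (q + 1) / (p * q - 1) with hβd
  set P : ℝ := (1 / 2 : ℝ) ^ (-α) + (1 / 2 : ℝ) ^ (-β) + (1 / 2 : ℝ) ^ (-α - 1)
    + (1 / 2 : ℝ) ^ (-β - 1) with hP
  have hP0 : 0 < P := by rw [hP]; positivity
  refine ⟨C * P, by positivity, fun Ω u v hΩ h0 hs x hx hxd => ?_⟩
  obtain ⟨k1, k2, k3, k4⟩ := h Ω u v hΩ h0 hs x hx
  have hx0 : x ≠ 0 := fun hh => h0 (hh ▸ hx)
  have hρ0 : 0 < ‖x‖ := norm_pos_iff.2 hx0
  set d := infDist x Ωᶜ with hd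
  have fin : ∀ (e κ X : ℝ), e ≤ 0 → (1 / 2 : ℝ) ^ e ≤ P → X ≤ C * ‖x‖ ^ κ * d ^ e →
      X ≤ C * P * ‖x‖ ^ (κ + e) := by
    intro e κ X he hP' hX
    have h1 : d ^ e ≤ (‖x‖ / 2) ^ e := Real.rpow_le_rpow_of_nonpos (by positivity) hxd he
    have h2 : (‖x‖ / 2) ^ e = (1 / 2 : ℝ) ^ e * ‖x‖ ^ e := by
      rw [show ‖x‖ / 2 = (1 / 2) * ‖x‖ by ring, Real.mul_rpow (by norm_num) hρ0.le]
    have h3 : 0 < ‖x‖ ^ κ := Real.rpow_pos_of_pos hρ0 _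
    have h4 : 0 < ‖x‖ ^ e := Real.rpow_pos_of_pos hρ0 _
    rw [h2] at h1
    have h5 : d ^ e ≤ P * ‖x‖ ^ e := h1.trans (mul_le_mul_of_nonneg_right hP' h4.le)
    have h6 : C * ‖x‖ ^ κ * d ^ e ≤ C * ‖x‖ ^ κ * (P * ‖x‖ ^ e) :=
      mul_le_mul_of_nonneg_left h5 (by positivity)
    rw [Real.rpow_add hρ0]
    refine (hX.trans h6).trans (le_of_eq (by ring))
  have q1 : 0 < (1 / 2 : ℝ) ^ (-α) := by positivity
  have q2 : 0 < (1 / 2 : ℝ) ^ (-β) := by positivity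
  have q3 : 0 < (1 / 2 : ℝ) ^ (-α - 1) := by positivity
  have q4 : 0 < (1 / 2 : ℝ) ^ (-β - 1) := by positivity
  have i1 : -((A + B * p) / (p * q - 1)) + -α = -((2 * (p + 1) + A + B * p) / (p * q - 1)) := by
    rw [hαd, ← neg_add, ← add_div]; congr 2; ring
  have i2 : -((B + A * q) / (p * q - 1)) + -β = -((2 * (q + 1) + B + A * q) / (p * q - 1)) := by
    rw [hβd, ← neg_add, ← add_div]; congr 2; ring
  have i3 : -((A + B * p) / (p * q - 1)) + (-α - 1)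
      = -((2 * (p + 1) + A + B * p) / (p * q - 1)) - 1 := by rw [← i1]; ring
  have i4 : -((B + A * q) / (p * q - 1)) + (-β - 1)
      = -((2 * (q + 1) + B + A * q) / (p * q - 1)) - 1 := by rw [← i2]; ring
  rw [← i3, ← i4, ← i1, ← i2]
  refine ⟨fin _ _ _ (by linarith) ?_ k1, fin _ _ _ (by linarith) ?_ k2,
    fin _ _ _ (by linarith) ?_ k3, fin _ _ _ (by linarith) ?_ k4⟩ <;>
    · rw [hP]; linarith

/-- Isolated singularities and decay at infinity. -/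
theorem sing (hLB : LocalBound n p q) (hp : 0 < p) (hq : 0 < q) (hpq : 1 < p * q) (A B : ℝ) :
    ∃ C : ℝ, 0 < C ∧
    ∀ (ρ : ℝ) (Ω : Set (EuclideanSpace ℝ (Fin n))) (u v : EuclideanSpace ℝ (Fin n) → ℝ)
      (x : EuclideanSpace ℝ (Fin n)), 0 < ρ →
      (Ω = ball 0 ρ \ {0} ∧ x ≠ 0 ∧ ‖x‖ ≤ ρ / 2 ∨ Ω = (closedBall 0 ρ)ᶜ ∧ 2 * ρ ≤ ‖x‖) →
      IsNonnegSolutionOn n p q A B Ω u v →
    u x ≤ C * ‖x‖ ^ (-((2 * (p + 1) + A + B * p) / (p * q - 1))) ∧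
    v x ≤ C * ‖x‖ ^ (-((2 * (q + 1) + B + A * q) / (p * q - 1))) ∧
    ‖fderiv ℝ u x‖ ≤ C * ‖x‖ ^ (-((2 * (p + 1) + A + B * p) / (p * q - 1)) - 1) ∧
    ‖fderiv ℝ v x‖ ≤ C * ‖x‖ ^ (-((2 * (q + 1) + B + A * q) / (p * q - 1)) - 1) := by
  obtain ⟨C, hC, h⟩ := near hLB hp hq hpq A B
  refine ⟨C, hC, fun ρ Ω u v x hρ hcase hs => ?_⟩
  rcases hcase with ⟨rfl, hx0, hxρ⟩ | ⟨rfl, hxρ⟩
  · have hn0 : 0 < ‖x‖ := norm_pos_iff.2 hx0
    have hx : x ∈ ball (0 : EuclideanSpace ℝ (Fin n)) ρ \ {0} :=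
      ⟨by rw [mem_ball_zero_iff]; linarith, hx0⟩
    refine h _ u v (isOpen_ball.sdiff isClosed_singleton) (fun hh => hh.2 rfl) hs x hx ?_
    refine (le_infDist ⟨0, fun hh => hh.2 rfl⟩).2 fun y hy => ?_
    by_cases hy0 : y = 0
    · rw [hy0, dist_zero_right]; linarith
    · have hyρ : ρ ≤ ‖y‖ := by
        by_contra hcon
        exact hy ⟨by rw [mem_ball_zero_iff]; exact not_le.1 hcon, hy0⟩
      rw [dist_eq_norm, norm_sub_rev]
      have h1 : ‖y‖ ≤ ‖y - x‖ + ‖x‖ := by simpa using norm_add_le (y - x) x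
      linarith
  · have hx : x ∈ (closedBall (0 : EuclideanSpace ℝ (Fin n)) ρ)ᶜ := by
      rw [mem_compl_iff, mem_closedBall, dist_zero_right]
      push Not
      linarith
    refine h _ u v isClosed_closedBall.isOpen_compl (fun hh => hh (mem_closedBall_self hρ.le))
      hs x hx ?_
    rw [compl_compl]
    refine (le_infDist ⟨0, mem_closedBall_self hρ.le⟩).2 fun y hy => ?_
    rw [mem_closedBall, dist_zero_right] at hy
    rw [dist_eq_norm]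
    have h1 : ‖x‖ ≤ ‖x - y‖ + ‖y‖ := by simpa using norm_add_le (x - y) y
    linarith

/-- Nonnegative entire solutions vanish. -/
theorem entire_zero (hLB : LocalBound n p q) (hp : 0 < p) (hq : 0 < q) (hpq : 1 < p * q)
    (u v : EuclideanSpace ℝ (Fin n) → ℝ) (hs : IsNonnegSolutionOn n p q 0 0 univ u v) :
    ∀ x, u x = 0 ∧ v x = 0 := by
  obtain ⟨C, hC, h⟩ := hLB 1 le_rfl
  have hD : 0 < p * q - 1 := by linarith
  have hα : 0 < 2 * (p + 1) / (p * q - 1) := by positivity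
  have hβ : 0 < 2 * (q + 1) / (p * q - 1) := by positivity
  intro x
  have key : ∀ R : ℝ, 0 < R → u x ≤ C * R ^ (-(2 * (p + 1) / (p * q - 1))) ∧
      v x ≤ C * R ^ (-(2 * (q + 1) / (p * q - 1))) := by
    intro R hR
    have := h x R hR (fun _ => 1) (fun _ => 1) u v (hs.contDiffOn_u.mono (subset_univ _))
      (hs.contDiffOn_v.mono (subset_univ _))
      (fun y _ => ⟨hs.nonneg_u y trivial, hs.nonneg_v y trivial⟩)
      (fun y _ => by norm_num) (fun y _ z _ => by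
        simp only [sub_self, abs_zero, one_mul]
        exact ⟨by positivity, by positivity⟩) (fun y _ => by
        have h1 := hs.eq_u y trivial
        have h2 := hs.eq_v y trivial
        rw [Real.rpow_zero] at h1 h2
        exact ⟨h1, h2⟩)
    exact ⟨this.1, this.2.1⟩
  have hlim : ∀ e : ℝ, 0 < e → Filter.Tendsto (fun R : ℝ => C * R ^ (-e)) Filter.atTop
      (nhds 0) := by
    intro e he
    simpa using (tendsto_rpow_neg_atTop he).const_mul C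
  constructor
  · refine le_antisymm ?_ (hs.nonneg_u x trivial)
    refine ge_of_tendsto (hlim _ hα) ?_
    filter_upwards [Filter.eventually_gt_atTop 0] with R hR
    exact (key R hR).1
  · refine le_antisymm ?_ (hs.nonneg_v x trivial)
    refine ge_of_tendsto (hlim _ hβ) ?_
    filter_upwards [Filter.eventually_gt_atTop 0] with R hR
    exact (key R hR).2

end Vale.Agent.P100.H115
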