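import Vale.Agent.P100.Bdl.B1
import Vale.Agent.P100.H115.C11

/-!
Interior gradient bound, Lipschitz bound for the gradient, and lower bounds for nonnegative
superharmonic functions.
-/

open Set Metric MeasureTheory InnerProductSpace Filter Topology

namespace Vale.Agent.P100.H115

/-- Euclidean space. -/
abbrev Es (n : ℕ) := EuclideanSpace ℝ (Fin n)

variable {n : ℕ}

theorem lap_eq_sum (f : Es n → ℝ) (x : Es n) : Laplacian.laplacian f x =
    ∑ i, fderiv ℝ (fderiv ℝ f) x (EuclideanSpace.basisFun (Fin n) ℝ i)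
      (EuclideanSpace.basisFun (Fin n) ℝ i) := by
  rw [InnerProductSpace.laplacian_eq_iteratedFDeriv_orthonormalBasis f
    (EuclideanSpace.basisFun (Fin n) ℝ)]
  refine Finset.sum_congr rfl fun i _ => ?_
  rw [iteratedFDeriv_two_apply]
  rfl

theorem fderiv_comp_add (f : Es n → ℝ) (c x : Es n) :
    fderiv ℝ (fun z => f (z + c)) x = fderiv ℝ f (x + c) :=
  fderiv_comp_add_right c

theorem lap_comp_add (f : Es n → ℝ) (c x : Es n) :
    Laplacian.laplacian (fun z => f (z + c)) x = Laplacian.laplacian f (x + c) := by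
  rw [lap_eq_sum, lap_eq_sum]
  have h1 : fderiv ℝ (fun z => f (z + c)) = fun z => fderiv ℝ f (z + c) := by
    funext z; exact fderiv_comp_add f c z
  have h2 : fderiv ℝ (fun z => fderiv ℝ f (z + c)) x = fderiv ℝ (fderiv ℝ f) (x + c) :=
    fderiv_comp_add_right c
  rw [h1, h2]

/-- **Interior gradient bound** at unit scale. -/
theorem ge (n : ℕ) (hn : 1 ≤ n) : ∃ C : ℝ, 0 < C ∧
    ∀ (w : Es n → ℝ) (U : Set (Es n)) (x : Es n), IsOpen U → closedBall x 1 ⊆ U →
      ContDiffOn ℝ 2 w U → ∀ m : ℝ, (∀ y ∈ closedBall x 1, |w y| ≤ m) →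
      (∀ y ∈ closedBall x 1, |Laplacian.laplacian w y| ≤ m) → ‖fderiv ℝ w x‖ ≤ C * m := by
  obtain ⟨C, hC, h⟩ := RM.grad_est n hn
  set vol : ℝ := volume.real (closedBall (0 : Es n) 1) with hvol
  set κ : ℝ := ∫ y in closedBall (0 : Es n) 1, (‖y‖ ^ (n - 1))⁻¹ with hκ
  have hvol0 : 0 ≤ vol := measureReal_nonneg
  have hκ0 : 0 ≤ κ := setIntegral_nonneg measurableSet_closedBall fun y _ => by positivity
  refine ⟨C * vol + C * κ + 1, by positivity, ?_⟩
  intro w U x hU hsub hw m hm1 hm2
  have hm0 : 0 ≤ m := (abs_nonneg _).trans (hm1 x (mem_closedBall_self zero_le_one))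
  have hvx : volume.real (closedBall x 1) = vol := by
    rw [hvol, Measure.real, Measure.real, Measure.addHaar_closedBall_center]
  -- first integral
  have i1 : (∫ y in closedBall x 1, |w y|) ≤ m * vol := by
    have h1 := norm_setIntegral_le_of_norm_le_const (μ := (volume : Measure (Es n)))
      (s := closedBall x 1) (f := fun y => |w y|) (C := m) measure_closedBall_lt_top
      (fun y hy => by rw [Real.norm_eq_abs, abs_abs]; exact hm1 y hy)
    rw [hvx] at h1
    exact (le_abs_self _).trans h1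
  -- the kernel
  set F : Es n → ℝ := fun y => (‖x - y‖ ^ (n - 1))⁻¹ with hF
  have hpre : (fun z : Es n => x + z) ⁻¹' (closedBall x 1) = closedBall (0 : Es n) 1 := by
    ext z
    simp [mem_closedBall, dist_eq_norm]
  have hFint : IntegrableOn F (closedBall x 1) := by
    have h1 := (measurePreserving_add_left (volume : Measure (Es n)) x).integrableOn_comp_preimage
      (MeasurableEquiv.addLeft x).measurableEmbedding (f := F) (s := closedBall x 1)
    rw [← h1]
    rw [hpre]
    refine (RM.Gr.kernel_integrableOn hn).congr_fun (fun z _ => ?_) measurableSet_closedBall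
    simp [hF]
  have hFκ : ∫ y in closedBall x 1, F y = κ := by
    have h1 := RM.Gr.scale_int F x (l := 1) one_pos
    rw [one_pow, inv_one, one_mul] at h1
    rw [← h1, hκ]
    refine setIntegral_congr_fun measurableSet_closedBall fun z _ => ?_
    simp [hF]
  have i2 : (∫ y in closedBall x 1, (‖x - y‖ ^ (n - 1))⁻¹ * |Laplacian.laplacian w y|)
      ≤ m * κ := by
    have h1 : (∫ y in closedBall x 1, (‖x - y‖ ^ (n - 1))⁻¹ * |Laplacian.laplacian w y|)
        ≤ ∫ y in closedBall x 1, F y * m := by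
      refine integral_mono_of_nonneg ?_ (hFint.mul_const m) ?_
      · exact Eventually.of_forall fun y => by
          show (0 : ℝ) ≤ (‖x - y‖ ^ (n - 1))⁻¹ * |Laplacian.laplacian w y|
          positivity
      · refine (ae_restrict_mem measurableSet_closedBall).mono fun y hy => ?_
        exact mul_le_mul_of_nonneg_left (hm2 y hy) (by positivity)
    rw [integral_mul_const, hFκ, mul_comm] at h1
    exact h1
  refine ContinuousLinearMap.opNorm_le_bound _ (by positivity) fun e => ?_
  have h1 := h w U x 1 one_pos hU hsub hw e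
  rw [one_pow, inv_one, mul_one] at h1
  rw [Real.norm_eq_abs]
  refine h1.trans ?_
  rw [mul_comm ((C * vol + C * κ + 1) * m)]
  refine mul_le_mul_of_nonneg_left ?_ (norm_nonneg _)
  have j1 := mul_le_mul_of_nonneg_left i1 hC.le
  have j2 := mul_le_mul_of_nonneg_left i2 hC.le
  nlinarith

/-- The gradient is Lipschitz if the Laplacian is. -/
theorem s4 (n : ℕ) (hn : 1 ≤ n) : ∃ C : ℝ, 0 < C ∧
    ∀ (w : Es n → ℝ) (ρ m : ℝ), ContDiffOn ℝ 2 w (ball 0 (ρ + 3)) → 0 ≤ m →
      (∀ y ∈ ball (0 : Es n) (ρ + 3), ‖fderiv ℝ w y‖ ≤ m) →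
      (∀ y ∈ ball (0 : Es n) (ρ + 3), ∀ y' ∈ ball (0 : Es n) (ρ + 3),
        |Laplacian.laplacian w y - Laplacian.laplacian w y'| ≤ m * ‖y - y'‖) →
      ∀ x ∈ ball (0 : Es n) ρ, ∀ y ∈ ball (0 : Es n) ρ,
        ‖fderiv ℝ w x - fderiv ℝ w y‖ ≤ C * m * ‖x - y‖ := by
  obtain ⟨C, hC, h⟩ := ge n hn
  refine ⟨C + 2, by positivity, ?_⟩
  intro w ρ m hw hm0 hgr hlip x hx y hy
  have hsub : ball (0 : Es n) ρ ⊆ ball 0 (ρ + 3) := ball_subset_ball (by linarith)
  rcases le_or_gt 1 ‖x - y‖ with hxy | hxy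
  · have h1 := hgr x (hsub hx)
    have h2 := hgr y (hsub hy)
    have h3 : ‖fderiv ℝ w x - fderiv ℝ w y‖ ≤ 2 * m := by
      refine (norm_sub_le _ _).trans (by linarith)
    have h4 : 0 ≤ C * m * ‖x - y‖ := by positivity
    nlinarith
  · set g : Es n := y - x with hg
    have hg1 : ‖g‖ < 1 := by rw [hg, norm_sub_rev]; exact hxy
    have hgn : ‖g‖ = ‖x - y‖ := by rw [hg, norm_sub_rev]
    have hx0 : ‖x‖ < ρ := by simpa using hx
    set U : Set (Es n) := ball 0 (ρ + 2) with hU
    have hUin : ∀ z ∈ U, z ∈ ball (0 : Es n) (ρ + 3) := fun z hz =>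
      ball_subset_ball (by linarith) hz
    have hUg : ∀ z ∈ U, z + g ∈ ball (0 : Es n) (ρ + 3) := by
      intro z hz
      have hz' : ‖z‖ < ρ + 2 := by simpa [hU] using hz
      rw [mem_ball_zero_iff]
      exact (norm_add_le _ _).trans_lt (by linarith)
    have hcd : ContDiffOn ℝ 2 (fun z => w (z + g)) U :=
      hw.comp (contDiff_id.add contDiff_const).contDiffOn (fun z hz => hUg z hz)
    have hcd0 : ContDiffOn ℝ 2 w U := hw.mono fun z hz => hUin z hz
    have hxU : closedBall x 1 ⊆ U := by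
      intro z hz
      rw [mem_closedBall, dist_eq_norm] at hz
      rw [hU, mem_ball_zero_iff]
      have : ‖z‖ ≤ ‖z - x‖ + ‖x‖ := by simpa using norm_add_le (z - x) x
      linarith
    have hUo : IsOpen U := isOpen_ball
    have cdat : ∀ z ∈ U, ContDiffAt ℝ 2 w z := fun z hz => hcd0.contDiffAt (hUo.mem_nhds hz)
    have cdat' : ∀ z ∈ U, ContDiffAt ℝ 2 (fun z => w (z + g)) z := fun z hz =>
      hcd.contDiffAt (hUo.mem_nhds hz)
    have hb1 : ∀ z ∈ closedBall x 1, |w (z + g) - w z| ≤ m * ‖g‖ := by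
      intro z hz
      have h1 := lip_of_gr (convex_ball (0 : Es n) (ρ + 3))
        (fun t ht => (hw.contDiffAt (isOpen_ball.mem_nhds ht)).differentiableAt (by norm_num)) hgr
        (hUg z (hxU hz)) (hUin z (hxU hz))
      simpa using h1
    have hb2 : ∀ z ∈ closedBall x 1,
        |Laplacian.laplacian (fun z => w (z + g) - w z) z| ≤ m * ‖g‖ := by
      intro z hz
      have e1 : Laplacian.laplacian (fun z => w (z + g) - w z) z
          = Laplacian.laplacian w (z + g) - Laplacian.laplacian w z := by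
        have := (cdat' z (hxU hz)).laplacian_sub (cdat z (hxU hz))
        rw [← lap_comp_add]
        exact this
      rw [e1]
      have := hlip _ (hUg z (hxU hz)) _ (hUin z (hxU hz))
      simpa using this
    have key := h (fun z => w (z + g) - w z) U x hUo hxU (hcd.sub hcd0) (m * ‖g‖) hb1 hb2
    have hxx : x ∈ U := hxU (mem_closedBall_self zero_le_one)
    have e2 : fderiv ℝ (fun z => w (z + g) - w z) x = fderiv ℝ w y - fderiv ℝ w x := by
      rw [fderiv_fun_sub ((cdat' x hxx).differentiableAt (by norm_num))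
        ((cdat x hxx).differentiableAt (by norm_num)), fderiv_comp_add]
      rw [hg, add_sub_cancel]
    rw [e2, norm_sub_rev, hgn] at key
    have h4 : 0 ≤ m * ‖x - y‖ := by positivity
    nlinarith

theorem vol_pos (r : ℝ) (hr : 0 < r) : 0 < volume.real (closedBall (0 : Es n) r) :=
  ENNReal.toReal_pos (measure_closedBall_pos _ _ hr).ne' measure_closedBall_lt_top.ne

/-- lower bound from the mean value inequality -/
theorem mv_lower (n : ℕ) (hn : 3 ≤ n) {l r0 : ℝ} (hl : 0 < l) (hr0 : 0 < r0) :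
    ∃ c : ℝ, 0 < c ∧ ∀ (w : Es n → ℝ) (U : Set (Es n)) (x y0 : Es n), IsOpen U →
      closedBall x (2 * l) ⊆ U → ContDiffOn ℝ 2 w U →
      (∀ y ∈ closedBall x (2 * l), 0 ≤ w y ∧ Laplacian.laplacian w y ≤ 0) →
      closedBall y0 r0 ⊆ closedBall x l → ∀ m : ℝ, 0 ≤ m → (∀ y ∈ closedBall y0 r0, m ≤ w y) →
      c * m ≤ w x := by
  obtain ⟨C, hC, h⟩ := RM.mv_est n hn
  have hv := vol_pos (n := n) r0 hr0
  refine ⟨volume.real (closedBall (0 : Es n) r0) / (C * l ^ n), by positivity, ?_⟩
  intro w U x y0 hU hsub hw hpos hin m hm hlow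
  have h1 := h w U x l hl hU hsub hw hpos
  have hsub1 : closedBall x l ⊆ closedBall x (2 * l) := closedBall_subset_closedBall (by linarith)
  have hcont : ContinuousOn w (closedBall x l) := hw.continuousOn.mono (hsub1.trans hsub)
  have hint : IntegrableOn w (closedBall x l) := hcont.integrableOn_compact (isCompact_closedBall x l)
  have h2 : m * volume.real (closedBall (0 : Es n) r0) ≤ ∫ y in closedBall y0 r0, w y := by
    have hv2 : volume.real (closedBall y0 r0) = volume.real (closedBall (0 : Es n) r0) := by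
      rw [Measure.real, Measure.real, Measure.addHaar_closedBall_center]
    have h3 : ∫ _y in closedBall y0 r0, m ≤ ∫ y in closedBall y0 r0, w y :=
      setIntegral_mono_on (integrableOn_const measure_closedBall_lt_top.ne)
        (hint.mono_set hin) measurableSet_closedBall hlow
    rw [setIntegral_const, hv2, smul_eq_mul] at h3
    linarith
  have h4 : ∫ y in closedBall y0 r0, w y ≤ ∫ y in closedBall x l, w y :=
    setIntegral_mono_set hint ((ae_restrict_mem measurableSet_closedBall).mono fun y hy =>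
      (hpos y (hsub1 hy)).1) (LE.le.eventuallyLE hin)
  rw [div_mul_eq_mul_div, div_le_iff₀ (by positivity)]
  linarith

theorem lap_sq (x y : Es n) (c : ℝ) :
    Laplacian.laplacian (fun z => c * ‖z - x‖ ^ 2) y = c * (2 * n) := by
  have h1 : ∀ z : Es n, HasFDerivAt (fun z => c * ‖z - x‖ ^ 2) ((2 * c) • innerSL ℝ (z - x)) z := by
    intro z
    have h2 : HasFDerivAt (fun z => ‖z - x‖ ^ 2) (2 • (innerSL ℝ (z - x)).comp
        (ContinuousLinearMap.id ℝ (Es n))) z := by
      have := ((hasFDerivAt_id z).sub_const x).norm_sq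
      exact this
    have h3 := h2.const_mul c
    refine h3.congr_fderiv ?_
    ext v
    simp
    ring
  have h2 : fderiv ℝ (fun z : Es n => c * ‖z - x‖ ^ 2) = fun z => (2 * c) • innerSL ℝ (z - x) := by
    funext z; exact (h1 z).fderiv
  have h3 : HasFDerivAt (fun z : Es n => (2 * c) • innerSL ℝ (z - x))
      ((2 * c) • (innerSL ℝ : Es n →L[ℝ] Es n →L[ℝ] ℝ)) y := by
    have := (((innerSL ℝ : Es n →L[ℝ] Es n →L[ℝ] ℝ).hasFDerivAt (x := y - x)).comp y
      ((hasFDerivAt_id y).sub_const x)).const_smul (2 * c)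
    refine this.congr_fderiv ?_
    ext v w
    simp
  rw [lap_eq_sum, h2, h3.fderiv]
  have h4 : ∀ i : Fin n, ((2 * c) • (innerSL ℝ : Es n →L[ℝ] Es n →L[ℝ] ℝ))
      (EuclideanSpace.basisFun (Fin n) ℝ i) (EuclideanSpace.basisFun (Fin n) ℝ i) = 2 * c := by
    intro i
    have h5 : (innerSL ℝ (EuclideanSpace.basisFun (Fin n) ℝ i))
        (EuclideanSpace.basisFun (Fin n) ℝ i) = (1 : ℝ) := by
      rw [innerSL_apply_apply, real_inner_self_eq_norm_sq, OrthonormalBasis.norm_eq_one, one_pow]
    show (2 * c) * (innerSL ℝ (EuclideanSpace.basisFun (Fin n) ℝ i))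
        (EuclideanSpace.basisFun (Fin n) ℝ i) = 2 * c
    rw [h5, mul_one]
  rw [Finset.sum_congr rfl fun i _ => h4 i]
  simp
  ring

/-- lower bound from the equation -/
theorem lap_lower (n : ℕ) (hn : 3 ≤ n) :
    ∃ c : ℝ, 0 < c ∧ ∀ (w : Es n → ℝ) (U : Set (Es n)) (x : Es n), IsOpen U →
      closedBall x 2 ⊆ U → ContDiffOn ℝ 2 w U → ∀ m : ℝ, 0 ≤ m →
      (∀ y ∈ closedBall x 2, 0 ≤ w y ∧ Laplacian.laplacian w y ≤ -m) → c * m ≤ w x := by
  obtain ⟨C, hC, h⟩ := RM.mv_est n hn
  have hn0 : (0 : ℝ) < n := by exact_mod_cast (by omega : 0 < n)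
  set J : ℝ := ∫ y in closedBall (0 : Es n) 1, ‖y‖ ^ 2 with hJ
  have hJ0 : 0 < J := by
    have hsub : closedBall (0 : Es n) 1 \ closedBall 0 (1 / 2) ⊆ closedBall 0 1 := sdiff_subset
    have hcont : Continuous fun y : Es n => ‖y‖ ^ 2 := by fun_prop
    have hint : IntegrableOn (fun y : Es n => ‖y‖ ^ 2) (closedBall 0 1) :=
      hcont.continuousOn.integrableOn_compact (isCompact_closedBall 0 1)
    rw [hJ, setIntegral_pos_iff_support_of_nonneg_ae
      (Eventually.of_forall fun y => by show (0 : ℝ) ≤ ‖y‖ ^ 2; positivity) hint]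
    have hs : ball (0 : Es n) 1 \ {0} ⊆ Function.support (fun y : Es n => ‖y‖ ^ 2) ∩
        closedBall 0 1 := by
      intro y hy
      refine ⟨?_, ball_subset_closedBall hy.1⟩
      have hy0 : y ≠ 0 := hy.2
      simp [hy0]
    refine lt_of_lt_of_le ?_ (measure_mono hs)
    have : Nontrivial (Es n) := by
      have : Nonempty (Fin n) := ⟨⟨0, by omega⟩⟩
      infer_instance
    rw [measure_sdiff_null (measure_singleton 0)]
    exact measure_ball_pos _ _ one_pos
  refine ⟨J / (2 * n * C), by positivity, ?_⟩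
  intro w U x hU hsub hw m hm hpos
  set w1 : Es n → ℝ := fun z => w z + (m / (2 * n)) * ‖z - x‖ ^ 2 with hw1
  have hsq : ContDiff ℝ 2 (fun z : Es n => (m / (2 * n)) * ‖z - x‖ ^ 2) :=
    contDiff_const.mul ((contDiff_id.sub contDiff_const).norm_sq ℝ)
  have hw1c : ContDiffOn ℝ 2 w1 U := hw.add hsq.contDiffOn
  have h21 : (2 : ℝ) * 1 = 2 := by norm_num
  have hlap : ∀ y ∈ closedBall x 2, Laplacian.laplacian w1 y = Laplacian.laplacian w y + m := by
    intro y hy
    have h1 := (hw.contDiffAt (hU.mem_nhds (hsub hy))).laplacian_add hsq.contDiffAt (x := y)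
    rw [lap_sq] at h1
    have h2 : m / (2 * n) * (2 * n) = m := by field_simp
    rw [h2] at h1
    exact h1
  have key := h w1 U x 1 one_pos hU (by rw [h21]; exact hsub) hw1c (by
    rw [h21]
    intro y hy
    refine ⟨?_, ?_⟩
    · have := (hpos y hy).1
      simp only [hw1]
      positivity
    · rw [hlap y hy]
      linarith [(hpos y hy).2])
  have hx : w1 x = w x := by simp [hw1]
  rw [hx, one_pow, mul_one] at key
  have hcont : ContinuousOn w (closedBall x 1) :=
    hw.continuousOn.mono ((closedBall_subset_closedBall (by norm_num)).trans hsub)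
  have hcsq : Continuous fun z : Es n => (m / (2 * n)) * ‖z - x‖ ^ 2 := hsq.continuous
  have i1 : ∫ y in closedBall x 1, (m / (2 * n)) * ‖y - x‖ ^ 2 ≤ ∫ y in closedBall x 1, w1 y := by
    refine setIntegral_mono_on (hcsq.continuousOn.integrableOn_compact (isCompact_closedBall x 1))
      ((hcont.add hcsq.continuousOn).integrableOn_compact (isCompact_closedBall x 1))
      measurableSet_closedBall ?_
    intro y hy
    have := (hpos y (closedBall_subset_closedBall (by norm_num) hy)).1
    simp only [hw1]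
    linarith
  have i2 : ∫ y in closedBall x 1, (m / (2 * n)) * ‖y - x‖ ^ 2 = (m / (2 * n)) * J := by
    have h1 := RM.Gr.scale_int (fun y => (m / (2 * n)) * ‖y - x‖ ^ 2) x (l := 1) one_pos
    rw [one_pow, inv_one, one_mul] at h1
    rw [← h1, hJ, ← integral_const_mul]
    refine setIntegral_congr_fun measurableSet_closedBall fun z _ => ?_
    simp
  rw [i2] at i1
  have h3 : m / (2 * n) * J ≤ C * w x := i1.trans key
  have h4 : J / (2 * n * C) * m = (m / (2 * n) * J) / C := by field_simp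
  rw [h4, div_le_iff₀ hC]
  linarith

end Vale.Agent.P100.H115
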