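import Vale.Agent.P100.H115.Ge

/-!
Limits, along an ultrafilter, of sequences of functions with locally uniformly bounded and
Lipschitz second derivatives.
-/

open Set Metric Filter Topology

namespace Vale.Agent.P100.H115

theorem exists_ultralim {X : Type*} [NormedAddCommGroup X] [NormedSpace ℝ X] [ProperSpace X]
    (𝓤 : Ultrafilter ℕ) (a : ℕ → X) (K : ℝ) (h : ∀ᶠ k in (𝓤 : Filter ℕ), ‖a k‖ ≤ K) :
    ∃ l : X, Tendsto a 𝓤 (𝓝 l) := by
  have hc := isCompact_closedBall (0 : X) K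
  have h1 : ((𝓤.map a : Ultrafilter X) : Filter X) ≤ 𝓟 (closedBall (0 : X) K) := by
    rw [le_principal_iff]
    exact h.mono fun k hk => by simpa using hk
  obtain ⟨l, _, hl⟩ := hc.ultrafilter_le_nhds (𝓤.map a) h1
  exact ⟨l, hl⟩

theorem hasFDerivAt_of_quad {E F : Type*} [NormedAddCommGroup E] [NormedSpace ℝ E]
    [NormedAddCommGroup F] [NormedSpace ℝ F] {f : E → F} {f' : E →L[ℝ] F} {x : E} {K r : ℝ}
    (hr : 0 < r) (h : ∀ y ∈ ball x r, ‖f y - f x - f' (y - x)‖ ≤ K * ‖y - x‖ ^ 2) :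
    HasFDerivAt f f' x := by
  rw [hasFDerivAt_iff_isLittleO]
  refine Asymptotics.IsBigO.trans_isLittleO ?_ (Asymptotics.isLittleO_pow_sub_sub x one_lt_two)
  refine Asymptotics.IsBigO.of_bound K ?_
  filter_upwards [ball_mem_nhds x hr] with y hy
  rw [norm_pow, norm_norm]
  exact h y hy

theorem tendsto_clm {E F : Type*} [NormedAddCommGroup E] [NormedSpace ℝ E]
    [NormedAddCommGroup F] [NormedSpace ℝ F] {𝓤 : Filter ℕ} {L : ℕ → E →L[ℝ] F} {l : E →L[ℝ] F}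
    (h : Tendsto L 𝓤 (𝓝 l)) (v : E) : Tendsto (fun k => L k v) 𝓤 (𝓝 (l v)) :=
  ((ContinuousLinearMap.apply ℝ F v).continuous.tendsto l).comp h

theorem lim_sub_le {X : Type*} [NormedAddCommGroup X] {𝓤 : Filter ℕ} [NeBot 𝓤] {a b : ℕ → X}
    {la lb : X} (ha : Tendsto a 𝓤 (𝓝 la)) (hb : Tendsto b 𝓤 (𝓝 lb)) {C : ℝ}
    (h : ∀ᶠ k in 𝓤, ‖a k - b k‖ ≤ C) : ‖la - lb‖ ≤ C :=
  le_of_tendsto (ha.sub hb).norm h

theorem continuous_of_locLip {E X : Type*} [NormedAddCommGroup E] [NormedAddCommGroup X]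
    {H : E → X} (h : ∀ x, ∃ K, ∀ y ∈ ball x 1, ‖H y - H x‖ ≤ K * ‖y - x‖) : Continuous H := by
  rw [continuous_iff_continuousAt]
  intro x
  obtain ⟨K, hb⟩ := h x
  rw [ContinuousAt, tendsto_iff_norm_sub_tendsto_zero]
  refine squeeze_zero_norm' (a := fun y => K * ‖y - x‖) ?_ ?_
  · filter_upwards [ball_mem_nhds x one_pos] with y hy
    rw [norm_norm]
    exact hb y hy
  · have : Continuous fun y : E => K * ‖y - x‖ := by fun_prop
    have := this.tendsto x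
    simpa using this

variable {n : ℕ}

/-- locally uniform bounds. -/
structure Bd2 (𝓤 : Filter ℕ) (f : ℕ → Es n → ℝ) : Prop where
  bd : ∀ R : ℝ, ∃ K : ℝ, ∀ᶠ k in 𝓤, ContDiffOn ℝ 2 (f k) (ball 0 R) ∧
    (∀ x ∈ ball (0 : Es n) R, |f k x| ≤ K ∧ ‖fderiv ℝ (f k) x‖ ≤ K ∧
      ‖fderiv ℝ (fderiv ℝ (f k)) x‖ ≤ K) ∧
    ∀ x ∈ ball (0 : Es n) R, ∀ y ∈ ball (0 : Es n) R,
      ‖fderiv ℝ (fderiv ℝ (f k)) x - fderiv ℝ (fderiv ℝ (f k)) y‖ ≤ K * ‖x - y‖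

theorem taylor {E F : Type*} [NormedAddCommGroup E] [NormedSpace ℝ E]
    [NormedAddCommGroup F] [NormedSpace ℝ F] {f : E → F} {W : Set E} (hW : Convex ℝ W) {K : ℝ}
    (hK : 0 ≤ K)
    (hd : ∀ z ∈ W, DifferentiableAt ℝ f z)
    (hl : ∀ x ∈ W, ∀ y ∈ W, ‖fderiv ℝ f x - fderiv ℝ f y‖ ≤ K * ‖x - y‖)
    {x y : E} (hx : x ∈ W) (hy : y ∈ W) :
    ‖f y - f x - fderiv ℝ f x (y - x)‖ ≤ K * ‖y - x‖ ^ 2 := by
  have hc : Convex ℝ (W ∩ closedBall x ‖y - x‖) := hW.inter (convex_closedBall _ _)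
  have h := hc.norm_image_sub_le_of_norm_fderiv_le' (𝕜 := ℝ) (f := f) (φ := fderiv ℝ f x)
    (C := K * ‖y - x‖) (fun z hz => hd z hz.1) (fun z hz => by
      refine (hl z hz.1 x hx).trans ?_
      refine mul_le_mul_of_nonneg_left ?_ hK
      have := hz.2
      rwa [mem_closedBall, dist_eq_norm] at this)
    (x := x) (y := y) ⟨hx, mem_closedBall_self (norm_nonneg _)⟩ ⟨hy, by
      rw [mem_closedBall, dist_eq_norm]⟩
  rw [pow_two, ← mul_assoc]
  exact h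

theorem exists_lim (𝓤 : Ultrafilter ℕ) (f : ℕ → Es n → ℝ) (h : Bd2 (𝓤 : Filter ℕ) f) :
    ∃ g : Es n → ℝ, ContDiff ℝ 2 g ∧ (∀ x, Tendsto (fun k => f k x) 𝓤 (𝓝 (g x))) ∧
      ∀ x, Tendsto (fun k => Laplacian.laplacian (f k) x) 𝓤 (𝓝 (Laplacian.laplacian g x)) := by
  have hmem : ∀ x : Es n, x ∈ ball (0 : Es n) (‖x‖ + 1) := fun x => by
    rw [mem_ball_zero_iff]; linarith
  have e0 : ∀ x : Es n, ∃ l : ℝ, Tendsto (fun k => f k x) 𝓤 (𝓝 l) := by
    intro x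
    obtain ⟨K, hK⟩ := h.bd (‖x‖ + 1)
    exact exists_ultralim 𝓤 _ K (hK.mono fun k hk => (hk.2.1 x (hmem x)).1)
  have e1 : ∀ x : Es n, ∃ l : Es n →L[ℝ] ℝ, Tendsto (fun k => fderiv ℝ (f k) x) 𝓤 (𝓝 l) := by
    intro x
    obtain ⟨K, hK⟩ := h.bd (‖x‖ + 1)
    exact exists_ultralim 𝓤 _ K (hK.mono fun k hk => (hk.2.1 x (hmem x)).2.1)
  have e2 : ∀ x : Es n, ∃ l : Es n →L[ℝ] Es n →L[ℝ] ℝ,
      Tendsto (fun k => fderiv ℝ (fderiv ℝ (f k)) x) 𝓤 (𝓝 l) := by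
    intro x
    obtain ⟨K, hK⟩ := h.bd (‖x‖ + 1)
    exact exists_ultralim (X := Es n →L[ℝ] Es n →L[ℝ] ℝ) 𝓤
      (fun k => fderiv ℝ (fderiv ℝ (f k)) x) K (hK.mono fun k hk => (hk.2.1 x (hmem x)).2.2)
  choose g hg using e0
  choose G hG using e1
  choose H hH using e2
  -- differentiability of the members
  have hd0 : ∀ {k : ℕ} {R : ℝ}, ContDiffOn ℝ 2 (f k) (ball 0 R) → ∀ z ∈ ball (0 : Es n) R,
      DifferentiableAt ℝ (f k) z := fun hc z hz =>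
    (hc.contDiffAt (isOpen_ball.mem_nhds hz)).differentiableAt (by norm_num)
  have hd1 : ∀ {k : ℕ} {R : ℝ}, ContDiffOn ℝ 2 (f k) (ball 0 R) → ∀ z ∈ ball (0 : Es n) R,
      DifferentiableAt ℝ (fderiv ℝ (f k)) z := fun hc z hz =>
    ((hc.contDiffAt (isOpen_ball.mem_nhds hz)).fderiv_right (m := 1) (by norm_num)).differentiableAt
      (by norm_num)
  have hgG : ∀ x, HasFDerivAt g (G x) x := by
    intro x
    obtain ⟨K, hK⟩ := h.bd (‖x‖ + 1)
    refine hasFDerivAt_of_quad (r := 1) (K := K) one_pos fun y hy => ?_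
    have hyR : y ∈ ball (0 : Es n) (‖x‖ + 1) := by
      rw [mem_ball, dist_eq_norm] at hy
      rw [mem_ball_zero_iff]
      have : ‖y‖ ≤ ‖y - x‖ + ‖x‖ := by simpa using norm_add_le (y - x) x
      linarith
    refine le_of_tendsto (((hg y).sub (hg x)).sub
      (tendsto_clm (hG x) (y - x))).norm ?_
    filter_upwards [hK] with k hk
    have hK0 : 0 ≤ K := (norm_nonneg _).trans (hk.2.1 x (hmem x)).2.1
    refine taylor (convex_ball (0 : Es n) (‖x‖ + 1)) hK0 (hd0 hk.1) ?_ (hmem x) hyR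
    intro a ha b hb
    exact (convex_ball (0 : Es n) (‖x‖ + 1)).norm_image_sub_le_of_norm_fderiv_le (𝕜 := ℝ)
      (hd1 hk.1) (fun z hz => (hk.2.1 z hz).2.2) hb ha
  have hGH : ∀ x, HasFDerivAt G (H x) x := by
    intro x
    obtain ⟨K, hK⟩ := h.bd (‖x‖ + 1)
    refine hasFDerivAt_of_quad (r := 1) (K := K) one_pos fun y hy => ?_
    have hyR : y ∈ ball (0 : Es n) (‖x‖ + 1) := by
      rw [mem_ball, dist_eq_norm] at hy
      rw [mem_ball_zero_iff]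
      have : ‖y‖ ≤ ‖y - x‖ + ‖x‖ := by simpa using norm_add_le (y - x) x
      linarith
    refine le_of_tendsto (((hG y).sub (hG x)).sub
      (tendsto_clm (hH x) (y - x))).norm ?_
    filter_upwards [hK] with k hk
    have hK0 : 0 ≤ K := (norm_nonneg _).trans (hk.2.1 x (hmem x)).2.1
    exact taylor (convex_ball (0 : Es n) (‖x‖ + 1)) hK0 (hd1 hk.1) hk.2.2 (hmem x) hyR
  have hHc : Continuous H := by
    refine continuous_of_locLip (E := Es n) (X := Es n →L[ℝ] Es n →L[ℝ] ℝ) (H := H) fun x => ?_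
    obtain ⟨K, hK⟩ := h.bd (‖x‖ + 1)
    refine ⟨K, fun y hy => ?_⟩
    have hyR : y ∈ ball (0 : Es n) (‖x‖ + 1) := by
      rw [mem_ball, dist_eq_norm] at hy
      rw [mem_ball_zero_iff]
      have : ‖y‖ ≤ ‖y - x‖ + ‖x‖ := by simpa using norm_add_le (y - x) x
      linarith
    refine lim_sub_le (X := Es n →L[ℝ] Es n →L[ℝ] ℝ) (hH y) (hH x) ?_
    filter_upwards [hK] with k hk
    exact hk.2.2 y hyR x (hmem x)
  have hfg : fderiv ℝ g = G := funext fun x => (hgG x).fderiv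
  have hfG : fderiv ℝ G = H := funext fun x => (hGH x).fderiv
  have hG1 : ContDiff ℝ 1 G := contDiff_one_iff_fderiv.2
    ⟨fun x => (hGH x).differentiableAt, by rw [hfG]; exact hHc⟩
  refine ⟨g, ?_, hg, ?_⟩
  · have : ContDiff ℝ (1 + 1) g := contDiff_succ_iff_fderiv.2
      ⟨fun x => (hgG x).differentiableAt, by simp, by rw [hfg]; exact hG1⟩
    simpa [one_add_one_eq_two] using this
  · intro x
    simp only [lap_eq_sum]
    rw [hfg, hfG]
    refine tendsto_finsetSum _ fun i _ => ?_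
    exact tendsto_clm (tendsto_clm (hH x) _) _

end Vale.Agent.P100.H115
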