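import Vale.Agent.P100.Bdl.B3
import Vale.Agent.P100.H115.Fin

/-!
Assembly of the final theorem from the local bound.
-/

open Set Metric

namespace Vale.Agent.P100.H115

variable {n : ℕ} {p q : ℝ}

/-- (2) all domains, without weights -/
theorem clause2 (hLB : LocalBound n p q) : ∃ C : ℝ, 0 < C ∧
    ∀ (Ω : Set (EuclideanSpace ℝ (Fin n))) (u v : EuclideanSpace ℝ (Fin n) → ℝ),
      IsOpen Ω → Ω ≠ univ → IsNonnegSolutionOn n p q 0 0 Ω u v →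
      ∀ x ∈ Ω, Bounds p q u v x C C (infDist x Ωᶜ) :=
  unweighted hLB

/-- (3) all domains not containing the origin -/
theorem clause3 (hLB : LocalBound n p q) (hpq : 1 < p * q) (A B : ℝ) : ∃ C : ℝ, 0 < C ∧
    ∀ (Ω : Set (EuclideanSpace ℝ (Fin n))) (u v : EuclideanSpace ℝ (Fin n) → ℝ),
      IsOpen Ω → 0 ∉ Ω → IsNonnegSolutionOn n p q A B Ω u v →
      ∀ x ∈ Ω, Bounds p q u v x (C * ‖x‖ ^ (-((A + B * p) / (p * q - 1))))
        (C * ‖x‖ ^ (-((B + A * q) / (p * q - 1)))) (infDist x Ωᶜ) :=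
  weighted hLB hpq A B

/-- (4) isolated singularities and decay at infinity -/
theorem clause4 (hLB : LocalBound n p q) (hp : 0 < p) (hq : 0 < q) (hpq : 1 < p * q) (A B : ℝ) :
    ∃ C : ℝ, 0 < C ∧ ∀ (ρ : ℝ) (u v : EuclideanSpace ℝ (Fin n) → ℝ)
      (x : EuclideanSpace ℝ (Fin n)), 0 < ρ →
      (IsNonnegSolutionOn n p q A B (ball 0 ρ \ {0}) u v → x ≠ 0 → ‖x‖ ≤ ρ / 2 →
        Bounds p q u v x (C * ‖x‖ ^ (-((A + B * p) / (p * q - 1))))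
          (C * ‖x‖ ^ (-((B + A * q) / (p * q - 1)))) ‖x‖) ∧
      (IsNonnegSolutionOn n p q A B (closedBall 0 ρ)ᶜ u v → 2 * ρ ≤ ‖x‖ →
        Bounds p q u v x (C * ‖x‖ ^ (-((A + B * p) / (p * q - 1))))
          (C * ‖x‖ ^ (-((B + A * q) / (p * q - 1)))) ‖x‖) := by
  obtain ⟨C, hC, h⟩ := sing hLB hp hq hpq A B
  have e1 : -((A + B * p) / (p * q - 1)) + -(2 * (p + 1) / (p * q - 1))
      = -((2 * (p + 1) + A + B * p) / (p * q - 1)) := by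
    rw [← neg_add, ← add_div]; congr 2; ring
  have e2 : -((B + A * q) / (p * q - 1)) + -(2 * (q + 1) / (p * q - 1))
      = -((2 * (q + 1) + B + A * q) / (p * q - 1)) := by
    rw [← neg_add, ← add_div]; congr 2; ring
  have e3 : -((A + B * p) / (p * q - 1)) + (-(2 * (p + 1) / (p * q - 1)) - 1)
      = -((2 * (p + 1) + A + B * p) / (p * q - 1)) - 1 := by rw [← e1]; ring
  have e4 : -((B + A * q) / (p * q - 1)) + (-(2 * (q + 1) / (p * q - 1)) - 1)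
      = -((2 * (q + 1) + B + A * q) / (p * q - 1)) - 1 := by rw [← e2]; ring
  have conv : ∀ (u v : EuclideanSpace ℝ (Fin n) → ℝ) (x : EuclideanSpace ℝ (Fin n)), 0 < ‖x‖ →
      (u x ≤ C * ‖x‖ ^ (-((2 * (p + 1) + A + B * p) / (p * q - 1))) ∧
      v x ≤ C * ‖x‖ ^ (-((2 * (q + 1) + B + A * q) / (p * q - 1))) ∧
      ‖fderiv ℝ u x‖ ≤ C * ‖x‖ ^ (-((2 * (p + 1) + A + B * p) / (p * q - 1)) - 1) ∧
      ‖fderiv ℝ v x‖ ≤ C * ‖x‖ ^ (-((2 * (q + 1) + B + A * q) / (p * q - 1)) - 1)) →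
      Bounds p q u v x (C * ‖x‖ ^ (-((A + B * p) / (p * q - 1))))
          (C * ‖x‖ ^ (-((B + A * q) / (p * q - 1)))) ‖x‖ := by
    intro u v x hx hb
    obtain ⟨b1, b2, b3, b4⟩ := hb
    rw [← e1, Real.rpow_add hx, ← mul_assoc] at b1
    rw [← e2, Real.rpow_add hx, ← mul_assoc] at b2
    rw [← e3, Real.rpow_add hx, ← mul_assoc] at b3
    rw [← e4, Real.rpow_add hx, ← mul_assoc] at b4
    exact ⟨b1, b2, b3, b4⟩
  refine ⟨C, hC, fun ρ u v x hρ => ⟨fun hs hx0 hxρ => ?_, fun hs hxρ => ?_⟩⟩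
  · exact conv u v x (norm_pos_iff.2 hx0) (h ρ _ u v x hρ (Or.inl ⟨rfl, hx0, hxρ⟩) hs)
  · exact conv u v x (by linarith) (h ρ _ u v x hρ (Or.inr ⟨rfl, hxρ⟩) hs)

theorem main (hLB : ∀ (n : ℕ), 2 ≤ n → ∀ p q : ℝ, 0 < p → 0 < q → 1 < p * q →
      (n : ℝ) - 2 < (n : ℝ) / (p + 1) + (n : ℝ) / (q + 1) → LocalBound n p q) :
    (∀ (n : ℕ), 2 ≤ n → ∀ p q A B : ℝ, 0 < p → 0 < q →
      ((n : ℝ) - 2 < ((n : ℝ) + A) / (p + 1) + ((n : ℝ) + B) / (q + 1) ∨ A ≤ -2 ∨ B ≤ -2) →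
      ¬ ∃ u v : EuclideanSpace ℝ (Fin n) → ℝ, IsPositiveEntireSolution n p q A B u v) ∧
    (∀ (n : ℕ), 2 ≤ n → ∀ p q : ℝ, 0 < p → 0 < q → 1 < p * q →
      (n : ℝ) - 2 < (n : ℝ) / (p + 1) + (n : ℝ) / (q + 1) →
      (∃ C : ℝ, 0 < C ∧
        ∀ (Ω : Set (EuclideanSpace ℝ (Fin n))) (u v : EuclideanSpace ℝ (Fin n) → ℝ),
          IsOpen Ω → Ω ≠ univ → IsNonnegSolutionOn n p q 0 0 Ω u v →
          ∀ x ∈ Ω, Bounds p q u v x C C (infDist x Ωᶜ)) ∧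
      ∀ A B : ℝ, ∃ C : ℝ, 0 < C ∧
        (∀ (Ω : Set (EuclideanSpace ℝ (Fin n))) (u v : EuclideanSpace ℝ (Fin n) → ℝ),
          IsOpen Ω → 0 ∉ Ω → IsNonnegSolutionOn n p q A B Ω u v →
          ∀ x ∈ Ω, Bounds p q u v x (C * ‖x‖ ^ (-((A + B * p) / (p * q - 1))))
            (C * ‖x‖ ^ (-((B + A * q) / (p * q - 1)))) (infDist x Ωᶜ)) ∧
        ∀ (ρ : ℝ) (u v : EuclideanSpace ℝ (Fin n) → ℝ) (x : EuclideanSpace ℝ (Fin n)), 0 < ρ →
          (IsNonnegSolutionOn n p q A B (ball 0 ρ \ {0}) u v → x ≠ 0 → ‖x‖ ≤ ρ / 2 →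
            Bounds p q u v x (C * ‖x‖ ^ (-((A + B * p) / (p * q - 1))))
              (C * ‖x‖ ^ (-((B + A * q) / (p * q - 1)))) ‖x‖) ∧
          (IsNonnegSolutionOn n p q A B (closedBall 0 ρ)ᶜ u v → 2 * ρ ≤ ‖x‖ →
            Bounds p q u v x (C * ‖x‖ ^ (-((A + B * p) / (p * q - 1))))
              (C * ‖x‖ ^ (-((B + A * q) / (p * q - 1)))) ‖x‖)) := by
  refine ⟨fun n hn p q A B hp hq h => ?_, fun n hn p q hp hq hpq hs => ⟨?_, fun A B => ?_⟩⟩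
  · rcases h with h | h | h
    · exact RM.no_solution_all hn hp hq (Or.inr (Or.inr h))
    · exact RM.no_solution_all hn hp hq (Or.inl h)
    · exact RM.no_solution_all hn hp hq (Or.inr (Or.inl h))
  · exact clause2 (hLB n hn p q hp hq hpq hs)
  · obtain ⟨C1, hC1, h1⟩ := clause3 (hLB n hn p q hp hq hpq hs) hpq A B
    obtain ⟨C2, hC2, h2⟩ := clause4 (hLB n hn p q hp hq hpq hs) hp hq hpq A B
    have mono : ∀ (C C' a b d : ℝ) (u v : EuclideanSpace ℝ (Fin n) → ℝ)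
        (x : EuclideanSpace ℝ (Fin n)), C ≤ C' → 0 ≤ a → 0 ≤ b → 0 ≤ d →
        Bounds p q u v x (C * a) (C * b) d → Bounds p q u v x (C' * a) (C' * b) d := by
      intro C C' a b d u v x hC ha hb hd hh
      obtain ⟨b1, b2, b3, b4⟩ := hh
      have f : ∀ (e X c : ℝ), 0 ≤ c → X ≤ C * c * d ^ e → X ≤ C' * c * d ^ e := by
        intro e X c hc hX
        exact hX.trans (mul_le_mul_of_nonneg_right (mul_le_mul_of_nonneg_right hC hc)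
          (Real.rpow_nonneg hd e))
      exact ⟨f _ _ _ ha b1, f _ _ _ hb b2, f _ _ _ ha b3, f _ _ _ hb b4⟩
    refine ⟨C1 + C2, by positivity, fun Ω u v hΩ h0 hs' x hx => ?_, fun ρ u v x hρ =>
      ⟨fun hs' hx0 hxρ => ?_, fun hs' hxρ => ?_⟩⟩
    · exact mono C1 (C1 + C2) _ _ _ u v x (by linarith) (Real.rpow_nonneg (norm_nonneg _) _)
        (Real.rpow_nonneg (norm_nonneg _) _) infDist_nonneg (h1 Ω u v hΩ h0 hs' x hx)
    · exact mono C2 (C1 + C2) _ _ _ u v x (by linarith) (Real.rpow_nonneg (norm_nonneg _) _)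
        (Real.rpow_nonneg (norm_nonneg _) _) (norm_nonneg _) ((h2 ρ u v x hρ).1 hs' hx0 hxρ)
    · exact mono C2 (C1 + C2) _ _ _ u v x (by linarith) (Real.rpow_nonneg (norm_nonneg _) _)
        (Real.rpow_nonneg (norm_nonneg _) _) (norm_nonneg _) ((h2 ρ u v x hρ).2 hs' hxρ)

end Vale.Agent.P100.H115
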