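import Vale.Agent.P100.H115.Lim
import Vale.Agent.P100.Defs

/-!
Sequences of bounded solutions on growing balls have a subsequential limit, a positive entire
solution of the Lane-Emden system.
-/

open Set Metric Filter Topology

namespace Vale.Agent.P100.H115

variable {n : ℕ} {p q A B M c0 : ℝ} {y : ℕ → Es n} {lam : ℕ → ℝ} {U V : ℕ → Es n → ℝ}

/-- A sequence of bounded positive solutions of rescaled Henon-Lane-Emden systems on growing
balls. -/
structure Seq (n : ℕ) (p q A B M c0 : ℝ) (y : ℕ → Es n) (lam : ℕ → ℝ) (U V : ℕ → Es n → ℝ) :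
    Prop where
  lam_pos : ∀ k, 0 < lam k
  lam_le : ∀ k, lam k ≤ 1
  lam_lim : Tendsto lam atTop (𝓝 0)
  c0_pos : 0 < c0
  cU : ∀ k : ℕ, ContDiffOn ℝ 2 (U k) (ball 0 (k + 1))
  cV : ∀ k : ℕ, ContDiffOn ℝ 2 (V k) (ball 0 (k + 1))
  pU : ∀ k : ℕ, ∀ z ∈ ball (0 : Es n) (k + 1), 0 < U k z ∧ U k z ≤ M
  pV : ∀ k : ℕ, ∀ z ∈ ball (0 : Es n) (k + 1), 0 < V k z ∧ V k z ≤ M
  w : ∀ k : ℕ, ∀ z ∈ ball (0 : Es n) (k + 1),
    1 / 2 ≤ ‖y k + lam k • z‖ ∧ ‖y k + lam k • z‖ ≤ 3 / 2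
  eU : ∀ k : ℕ, ∀ z ∈ ball (0 : Es n) (k + 1),
    -(Laplacian.laplacian (U k) z) = ‖y k + lam k • z‖ ^ A * V k z ^ p
  eV : ∀ k : ℕ, ∀ z ∈ ball (0 : Es n) (k + 1),
    -(Laplacian.laplacian (V k) z) = ‖y k + lam k • z‖ ^ B * U k z ^ q
  start : ∀ k, c0 ≤ U k 0 ∨ c0 ≤ V k 0

theorem nsub {X : Type*} [NormedAddCommGroup X] {a b : X} {K : ℝ} (ha : ‖a‖ ≤ K)
    (hb : ‖b‖ ≤ K) : ‖a - b‖ ≤ 2 * K :=
  (norm_sub_le a b).trans (by linarith)

namespace Seq

theorem swap (h : Seq n p q A B M c0 y lam U V) : Seq n q p B A M c0 y lam V U where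
  lam_pos := h.lam_pos
  lam_le := h.lam_le
  lam_lim := h.lam_lim
  c0_pos := h.c0_pos
  cU := h.cV
  cV := h.cU
  pU := h.pV
  pV := h.pU
  w := h.w
  eU := h.eV
  eV := h.eU
  start := fun k => (h.start k).symm

theorem zero_mem (k : ℕ) : (0 : Es n) ∈ ball (0 : Es n) (k + 1) :=
  mem_ball_self (by positivity)

theorem M_pos (h : Seq n p q A B M c0 y lam U V) : 0 < M :=
  (h.pU 0 0 (zero_mem 0)).1.trans_le (h.pU 0 0 (zero_mem 0)).2

/-- the coefficients -/
theorem coef (h : Seq n p q A B M c0 y lam U V) (s : ℝ) : ∃ K : ℝ, 0 ≤ K ∧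
    ∀ k : ℕ, C11 (ball (0 : Es n) (k + 1)) (fun z => ‖y k + lam k • z‖ ^ s) K := by
  obtain ⟨K, hK0, hK⟩ := C11.rpow (E := Es n) (m := 1 / 4) (K := 3) (p := s / 2) (by norm_num)
    (by norm_num)
  refine ⟨K, hK0, fun k => ?_⟩
  have hfd : ∀ z : Es n, HasFDerivAt (fun z => ‖y k + lam k • z‖ ^ 2)
      ((2 * lam k) • innerSL ℝ (y k + lam k • z)) z := by
    intro z
    have h1 : HasFDerivAt (fun z : Es n => y k + lam k • z)
        (lam k • ContinuousLinearMap.id ℝ (Es n)) z :=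
      ((hasFDerivAt_id z).const_smul (lam k)).const_add (y k)
    refine h1.norm_sq.congr_fderiv ?_
    ext v
    simp
    ring
  have h3 : C11 (ball (0 : Es n) (k + 1)) (fun z => ‖y k + lam k • z‖ ^ 2) 3 := by
    have hl0 := h.lam_pos k
    have hl1 := h.lam_le k
    constructor
    · intro z hz
      have := h.w k z hz
      rw [abs_of_nonneg (by positivity)]
      nlinarith [norm_nonneg (y k + lam k • z)]
    · intro z _
      exact (hfd z).differentiableAt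
    · intro z hz
      rw [(hfd z).fderiv, norm_smul, innerSL_apply_norm, Real.norm_eq_abs,
        abs_of_pos (by positivity)]
      have := h.w k z hz
      nlinarith [norm_nonneg (y k + lam k • z)]
    · intro z _ z' _
      rw [(hfd z).fderiv, (hfd z').fderiv, ← smul_sub, ← map_sub]
      have e1 : y k + lam k • z - (y k + lam k • z') = lam k • (z - z') := by
        rw [smul_sub]; abel
      rw [e1, norm_smul, innerSL_apply_norm, norm_smul, Real.norm_eq_abs, Real.norm_eq_abs,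
        abs_of_pos (by positivity), abs_of_pos hl0]
      have h5 : lam k * lam k ≤ 1 := by nlinarith
      have h6 : 2 * lam k * (lam k * ‖z - z'‖) = 2 * (lam k * lam k) * ‖z - z'‖ := by ring
      rw [h6]
      exact mul_le_mul_of_nonneg_right (by linarith) (norm_nonneg _)
  have h4 := hK (ball (0 : Es n) (k + 1)) _ (convex_ball _ _) h3 (fun z hz => by
    have := (h.w k z hz).1
    nlinarith)
  have h5 : (fun z : Es n => (‖y k + lam k • z‖ ^ 2) ^ (s / 2))
      = fun z => ‖y k + lam k • z‖ ^ s := by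
    funext z
    rw [← Real.rpow_natCast, ← Real.rpow_mul (norm_nonneg _)]
    congr 1
    push_cast
    ring
  rwa [h5] at h4

theorem coef_low (h : Seq n p q A B M c0 y lam U V) (s : ℝ) : ∃ c : ℝ, 0 < c ∧
    ∀ k : ℕ, ∀ z ∈ ball (0 : Es n) (k + 1), c ≤ ‖y k + lam k • z‖ ^ s := by
  obtain ⟨K, hK0, hK⟩ := h.coef (-s)
  refine ⟨(K + 1)⁻¹, by positivity, fun k z hz => ?_⟩
  have h1 := (hK k).bd z hz
  have h0 : 0 < ‖y k + lam k • z‖ := lt_of_lt_of_le (by norm_num) (h.w k z hz).1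
  rw [Real.rpow_neg h0.le, abs_of_pos (by positivity)] at h1
  have h2 : 0 < ‖y k + lam k • z‖ ^ s := Real.rpow_pos_of_pos h0 s
  rw [inv_le_comm₀ (by positivity) h2]
  linarith

theorem rhs_bd (h : Seq n p q A B M c0 y lam U V) (hp : 0 < p) : ∃ K : ℝ, 0 ≤ K ∧
    ∀ k : ℕ, ∀ z ∈ ball (0 : Es n) (k + 1), |Laplacian.laplacian (U k) z| ≤ K := by
  obtain ⟨K, hK0, hK⟩ := h.coef A
  have hM := h.M_pos
  refine ⟨K * M ^ p, by positivity, fun k z hz => ?_⟩
  rw [← abs_neg, h.eU k z hz, abs_mul]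
  have h1 := h.pV k z hz
  refine mul_le_mul ((hK k).bd z hz) ?_ (abs_nonneg _) hK0
  rw [abs_of_pos (Real.rpow_pos_of_pos h1.1 _)]
  exact Real.rpow_le_rpow h1.1.le h1.2 hp.le

theorem lap_nonpos (h : Seq n p q A B M c0 y lam U V) (k : ℕ) (z : Es n)
    (hz : z ∈ ball (0 : Es n) (k + 1)) : Laplacian.laplacian (U k) z ≤ 0 := by
  have h1 := h.eU k z hz
  have h2 : 0 < ‖y k + lam k • z‖ := lt_of_lt_of_le (by norm_num) (h.w k z hz).1
  have h3 := (h.pV k z hz).1
  have h4 : 0 < ‖y k + lam k • z‖ ^ A * V k z ^ p := by positivity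
  linarith

/-- gradient bound -/
theorem grad (h : Seq n p q A B M c0 y lam U V) (hn : 3 ≤ n) (hp : 0 < p) : ∃ K : ℝ, 0 ≤ K ∧
    ∀ k : ℕ, ∀ z ∈ ball (0 : Es n) k, ‖fderiv ℝ (U k) z‖ ≤ K := by
  obtain ⟨C, hC, hge⟩ := ge n (by omega)
  obtain ⟨K, hK0, hK⟩ := h.rhs_bd hp
  have hM := h.M_pos
  refine ⟨C * (M + K), by positivity, fun k z hz => ?_⟩
  have hsub : closedBall z 1 ⊆ ball (0 : Es n) (k + 1) := by
    intro x hx
    rw [mem_closedBall, dist_eq_norm] at hx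
    rw [mem_ball_zero_iff] at hz ⊢
    have : ‖x‖ ≤ ‖x - z‖ + ‖z‖ := by simpa using norm_add_le (x - z) z
    linarith
  refine hge (U k) _ z isOpen_ball hsub (h.cU k) (M + K) ?_ ?_
  · intro x hx
    have := h.pU k x (hsub hx)
    rw [abs_of_pos this.1]
    linarith [this.2]
  · intro x hx
    have := hK k x (hsub hx)
    linarith

theorem evK (𝓤 : Ultrafilter ℕ) (h𝓤 : (𝓤 : Filter ℕ) ≤ atTop) (R : ℝ) :
    ∀ᶠ k : ℕ in (𝓤 : Filter ℕ), R < k :=
  h𝓤 (((tendsto_natCast_atTop_atTop (R := ℝ)).eventually_gt_atTop R))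

theorem sub_ball {k : ℕ} {R : ℝ} (hR : R < k) : ball (0 : Es n) R ⊆ ball (0 : Es n) (k + 1) :=
  ball_subset_ball (by linarith)

/-- lower bound, first function -/
theorem low1 (h : Seq n p q A B M c0 y lam U V) (hn : 3 ≤ n) (hp : 0 < p) (𝓤 : Ultrafilter ℕ)
    (h𝓤 : (𝓤 : Filter ℕ) ≤ atTop) (hst : ∀ᶠ k in (𝓤 : Filter ℕ), c0 ≤ U k 0) (R : ℝ) :
    ∃ m : ℝ, 0 < m ∧ ∀ᶠ k in (𝓤 : Filter ℕ), ∀ z ∈ ball (0 : Es n) R, m ≤ U k z := by
  obtain ⟨K, hK0, hK⟩ := h.grad hn hp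
  have hc0 := h.c0_pos
  set r0 : ℝ := min 1 (c0 / (2 * (K + 1))) with hr0
  have hr0p : 0 < r0 := by rw [hr0]; positivity
  have hr01 : r0 ≤ 1 := min_le_left _ _
  have hr0K : K * r0 ≤ c0 / 2 := by
    have h1 : r0 ≤ c0 / (2 * (K + 1)) := min_le_right _ _
    have h2 : (K + 1) * r0 ≤ (K + 1) * (c0 / (2 * (K + 1))) :=
      mul_le_mul_of_nonneg_left h1 (by positivity)
    have h3 : (K + 1) * (c0 / (2 * (K + 1))) = c0 / 2 := by field_simp
    nlinarith
  obtain ⟨c, hc, hmv⟩ := mv_lower n hn (l := |R| + 1) (r0 := r0) (by positivity) hr0p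
  refine ⟨c * (c0 / 2), by positivity, ?_⟩
  filter_upwards [hst, evK 𝓤 h𝓤 2, evK 𝓤 h𝓤 (|R| + 2 * (|R| + 1))] with k h0 hk2 hkR
  intro x hx
  rw [mem_ball_zero_iff] at hx
  have hRR := le_abs_self R
  refine hmv (U k) (ball 0 (k + 1)) x 0 isOpen_ball ?_ (h.cU k) ?_ ?_ (c0 / 2) (by positivity) ?_
  · intro z hz
    rw [mem_closedBall, dist_eq_norm] at hz
    rw [mem_ball_zero_iff]
    have : ‖z‖ ≤ ‖z - x‖ + ‖x‖ := by simpa using norm_add_le (z - x) x
    linarith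
  · intro z hz
    have hz' : z ∈ ball (0 : Es n) (k + 1) := by
      rw [mem_closedBall, dist_eq_norm] at hz
      rw [mem_ball_zero_iff]
      have : ‖z‖ ≤ ‖z - x‖ + ‖x‖ := by simpa using norm_add_le (z - x) x
      linarith
    exact ⟨(h.pU k z hz').1.le, h.lap_nonpos k z hz'⟩
  · intro z hz
    rw [mem_closedBall, dist_zero_right] at hz
    rw [mem_closedBall, dist_eq_norm]
    have := norm_sub_le z x
    linarith
  · intro z hz
    rw [mem_closedBall, dist_zero_right] at hz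
    have hzk : z ∈ ball (0 : Es n) k := by rw [mem_ball_zero_iff]; linarith
    have h0k : (0 : Es n) ∈ ball (0 : Es n) k := mem_ball_self (by linarith)
    have hd : ∀ x ∈ ball (0 : Es n) k, DifferentiableAt ℝ (U k) x := fun x hx =>
      ((h.cU k).contDiffAt (isOpen_ball.mem_nhds
        (ball_subset_ball (by linarith) hx))).differentiableAt (by norm_num)
    have h1 := lip_of_gr (convex_ball (0 : Es n) k) hd (hK k) h0k hzk
    rw [zero_sub, norm_neg] at h1
    have h2 : K * ‖z‖ ≤ K * r0 := mul_le_mul_of_nonneg_left hz hK0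
    have h3 := abs_le.1 (h1.trans h2)
    linarith

/-- lower bound, second function -/
theorem low2 (h : Seq n p q A B M c0 y lam U V) (hn : 3 ≤ n) (hq : 0 < q) (𝓤 : Ultrafilter ℕ)
    (h𝓤 : (𝓤 : Filter ℕ) ≤ atTop)
    (hU : ∀ R, ∃ m : ℝ, 0 < m ∧ ∀ᶠ k in (𝓤 : Filter ℕ), ∀ z ∈ ball (0 : Es n) R, m ≤ U k z)
    (R : ℝ) :
    ∃ m : ℝ, 0 < m ∧ ∀ᶠ k in (𝓤 : Filter ℕ), ∀ z ∈ ball (0 : Es n) R, m ≤ V k z := by
  obtain ⟨m, hm, hmU⟩ := hU (R + 3)
  obtain ⟨cB, hcB, hB⟩ := h.coef_low B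
  obtain ⟨c, hc, hl⟩ := lap_lower n hn
  refine ⟨c * (cB * m ^ q), by positivity, ?_⟩
  filter_upwards [hmU, evK 𝓤 h𝓤 (R + 3)] with k hk1 hk2
  intro x hx
  rw [mem_ball_zero_iff] at hx
  have hin : ∀ z ∈ closedBall x 2, z ∈ ball (0 : Es n) (R + 3) := by
    intro z hz
    rw [mem_closedBall, dist_eq_norm] at hz
    rw [mem_ball_zero_iff]
    have : ‖z‖ ≤ ‖z - x‖ + ‖x‖ := by simpa using norm_add_le (z - x) x
    linarith
  refine hl (V k) (ball 0 (k + 1)) x isOpen_ball (fun z hz => sub_ball hk2 (hin z hz)) (h.cV k)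
    (cB * m ^ q) (by positivity) ?_
  intro z hz
  have hz1 := hin z hz
  have hz2 := sub_ball hk2 hz1
  refine ⟨(h.pV k z hz2).1.le, ?_⟩
  have h1 := h.eV k z hz2
  have h2 : m ^ q ≤ U k z ^ q := Real.rpow_le_rpow hm.le (hk1 z hz1) hq.le
  have h3 : cB * m ^ q ≤ ‖y k + lam k • z‖ ^ B * U k z ^ q :=
    mul_le_mul (hB k z hz2) h2 (by positivity) ((hcB.le).trans (hB k z hz2))
  linarith

theorem low (h : Seq n p q A B M c0 y lam U V) (hn : 3 ≤ n) (hp : 0 < p) (hq : 0 < q)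
    (𝓤 : Ultrafilter ℕ) (h𝓤 : (𝓤 : Filter ℕ) ≤ atTop) :
    (∀ R, ∃ m : ℝ, 0 < m ∧ ∀ᶠ k in (𝓤 : Filter ℕ), ∀ z ∈ ball (0 : Es n) R, m ≤ U k z) ∧
    (∀ R, ∃ m : ℝ, 0 < m ∧ ∀ᶠ k in (𝓤 : Filter ℕ), ∀ z ∈ ball (0 : Es n) R, m ≤ V k z) := by
  have h1 : ∀ᶠ k in (𝓤 : Filter ℕ), c0 ≤ U k 0 ∨ c0 ≤ V k 0 := Eventually.of_forall h.start
  rcases Ultrafilter.eventually_or.1 h1 with h2 | h2
  · have a1 := h.low1 hn hp 𝓤 h𝓤 h2
    exact ⟨a1, h.low2 hn hq 𝓤 h𝓤 a1⟩
  · have a1 := h.swap.low1 hn hq 𝓤 h𝓤 h2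
    exact ⟨h.swap.low2 hn hp 𝓤 h𝓤 a1, a1⟩

/-- the right-hand side, Lipschitz -/
theorem rhs01 (h : Seq n p q A B M c0 y lam U V) (hn : 3 ≤ n) (hp : 0 < p) (hq : 0 < q)
    (𝓤 : Ultrafilter ℕ) (h𝓤 : (𝓤 : Filter ℕ) ≤ atTop) (R : ℝ) :
    ∃ K : ℝ, 0 ≤ K ∧ ∀ᶠ k in (𝓤 : Filter ℕ),
      C01 (ball (0 : Es n) R) (fun z => ‖y k + lam k • z‖ ^ A * V k z ^ p) K := by
  obtain ⟨m, hm, hV⟩ := (h.low hn hp hq 𝓤 h𝓤).2 R
  obtain ⟨K1, hK10, hK1⟩ := h.swap.grad hn hq
  obtain ⟨K2, hK20, hK2⟩ := h.coef A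
  have hM := h.M_pos
  obtain ⟨K3, hK30, hK3⟩ := C01.rpow (E := Es n) (m := m) (K := m + M + K1) (p := p) hm
    (by linarith)
  refine ⟨2 * (K2 * K3), by positivity, ?_⟩
  filter_upwards [hV, evK 𝓤 h𝓤 R] with k hk1 hk2
  have hsub := sub_ball (n := n) hk2
  have hsub2 : ball (0 : Es n) R ⊆ ball 0 k := ball_subset_ball hk2.le
  have c1 : C01 (ball (0 : Es n) R) (V k) (m + M + K1) := by
    constructor
    · intro x hx
      have := h.pV k x (hsub hx)
      rw [abs_of_pos this.1]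
      linarith [this.2]
    · intro x hx z hz
      have h1 := lip_of_gr (convex_ball (0 : Es n) R) (fun t ht =>
        ((h.cV k).contDiffAt (isOpen_ball.mem_nhds (hsub ht))).differentiableAt (by norm_num))
        (fun t ht => hK1 k t (hsub2 ht)) hx hz
      exact h1.trans (mul_le_mul_of_nonneg_right (by linarith) (norm_nonneg _))
  have c2 := hK3 _ _ c1 hk1
  exact C01.mul hK20 (((hK2 k).mono hsub le_rfl).c01 (convex_ball _ _)) c2

/-- the functions, Lipschitz gradient -/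
theorem fun11 (h : Seq n p q A B M c0 y lam U V) (hn : 3 ≤ n) (hp : 0 < p) (hq : 0 < q)
    (𝓤 : Ultrafilter ℕ) (h𝓤 : (𝓤 : Filter ℕ) ≤ atTop) (R : ℝ) :
    ∃ K : ℝ, 0 ≤ K ∧ ∀ᶠ k in (𝓤 : Filter ℕ), C11 (ball (0 : Es n) R) (U k) K := by
  obtain ⟨C, hC, hs4⟩ := s4 n (by omega)
  obtain ⟨K1, hK10, hK1⟩ := h.grad hn hp
  obtain ⟨K2, hK20, hK2⟩ := h.rhs01 hn hp hq 𝓤 h𝓤 (R + 3)
  have hM := h.M_pos
  refine ⟨M + K1 + C * (K1 + K2), by positivity, ?_⟩
  filter_upwards [hK2, evK 𝓤 h𝓤 (R + 3)] with k hk1 hk2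
  have hsub := sub_ball (n := n) hk2
  have hsubk : ball (0 : Es n) (R + 3) ⊆ ball 0 k := ball_subset_ball hk2.le
  have hsub3 : ball (0 : Es n) R ⊆ ball 0 (R + 3) := ball_subset_ball (by linarith)
  have hnn : 0 ≤ C * (K1 + K2) := by positivity
  constructor
  · intro x hx
    have := h.pU k x (hsub (hsub3 hx))
    rw [abs_of_pos this.1]
    linarith [this.2]
  · intro x hx
    exact ((h.cU k).contDiffAt (isOpen_ball.mem_nhds (hsub (hsub3 hx)))).differentiableAt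
      (by norm_num)
  · intro x hx
    have := hK1 k x (hsubk (hsub3 hx))
    linarith
  · intro x hx z hz
    have key := hs4 (U k) R (K1 + K2) ((h.cU k).mono hsub) (by positivity) (fun t ht => by
      have := hK1 k t (hsubk ht)
      linarith) (fun t ht t' ht' => by
      have e1 := h.eU k t (hsub ht)
      have e2 := h.eU k t' (hsub ht')
      have e3 : Laplacian.laplacian (U k) t - Laplacian.laplacian (U k) t'
          = -(‖y k + lam k • t‖ ^ A * V k t ^ p - ‖y k + lam k • t'‖ ^ A * V k t' ^ p) := by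
        linarith
      rw [e3, abs_neg]
      refine (hk1.lip t ht t' ht').trans (mul_le_mul_of_nonneg_right (by linarith) (norm_nonneg _)))
      x hx z hz
    exact key.trans (mul_le_mul_of_nonneg_right (by linarith) (norm_nonneg _))

/-- the right-hand side, Lipschitz gradient -/
theorem rhs11 (h : Seq n p q A B M c0 y lam U V) (hn : 3 ≤ n) (hp : 0 < p) (hq : 0 < q)
    (𝓤 : Ultrafilter ℕ) (h𝓤 : (𝓤 : Filter ℕ) ≤ atTop) (R : ℝ) :
    ∃ K : ℝ, 0 ≤ K ∧ ∀ᶠ k in (𝓤 : Filter ℕ),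
      C11 (ball (0 : Es n) R) (fun z => ‖y k + lam k • z‖ ^ A * V k z ^ p) K := by
  obtain ⟨m, hm, hV⟩ := (h.low hn hp hq 𝓤 h𝓤).2 R
  obtain ⟨K1, hK10, hK1⟩ := h.swap.fun11 hn hq hp 𝓤 h𝓤 R
  obtain ⟨K2, hK20, hK2⟩ := h.coef A
  obtain ⟨K3, hK30, hK3⟩ := C11.rpow (E := Es n) (m := m) (K := m + K1) (p := p) hm (by linarith)
  refine ⟨4 * (K2 * K3), by positivity, ?_⟩
  filter_upwards [hV, evK 𝓤 h𝓤 R, hK1] with k hk1 hk2 hk3
  have c2 := hK3 _ _ (convex_ball (0 : Es n) R) (hk3.mono Subset.rfl (by linarith)) hk1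
  exact C11.mul (convex_ball _ _) hK20 ((hK2 k).mono (sub_ball hk2) le_rfl) c2

/-- all bounds -/
theorem bd2 (h : Seq n p q A B M c0 y lam U V) (hn : 3 ≤ n) (hp : 0 < p) (hq : 0 < q)
    (𝓤 : Ultrafilter ℕ) (h𝓤 : (𝓤 : Filter ℕ) ≤ atTop) : Bd2 (𝓤 : Filter ℕ) U := by
  constructor
  intro R
  obtain ⟨C, hC, hs4⟩ := s4 n (by omega)
  obtain ⟨K4, hK40, hK4⟩ := h.fun11 hn hp hq 𝓤 h𝓤 (R + 4)
  obtain ⟨K5, hK50, hK5⟩ := h.rhs11 hn hp hq 𝓤 h𝓤 (R + 4)
  refine ⟨2 * K4 + C * (K4 + K5), ?_⟩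
  filter_upwards [hK4, hK5, evK 𝓤 h𝓤 (R + 4)] with k hk4 hk5 hk
  have hsub := sub_ball (n := n) hk
  have hsub3 : ball (0 : Es n) R ⊆ ball 0 (R + 4) := ball_subset_ball (by linarith)
  have hnn : 0 ≤ C * (K4 + K5) := by positivity
  have hcd : ContDiffOn ℝ 2 (U k) (ball 0 (R + 4)) := (h.cU k).mono hsub
  have hdd : ∀ z ∈ ball (0 : Es n) (R + 4), DifferentiableAt ℝ (fderiv ℝ (U k)) z := fun z hz =>
    ((hcd.contDiffAt (isOpen_ball.mem_nhds hz)).fderiv_right (m := 1)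
      (by norm_num)).differentiableAt (by norm_num)
  have hd2 : ∀ z ∈ ball (0 : Es n) (R + 4), ‖fderiv ℝ (fderiv ℝ (U k)) z‖ ≤ K4 := by
    intro z hz
    refine (hdd z hz).hasFDerivAt.le_of_lip' hK40 ?_
    filter_upwards [isOpen_ball.mem_nhds hz] with x hx
    exact hk4.lip x hx z hz
  refine ⟨hcd.mono hsub3, ?_, ?_⟩
  · intro x hx
    have h1 := hk4.bd x (hsub3 hx)
    have h2 := hk4.gr x (hsub3 hx)
    have h3 := hd2 x (hsub3 hx)
    exact ⟨by linarith, by linarith, by linarith⟩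
  · intro x hx z hz
    rcases le_or_gt 1 ‖x - z‖ with hxz | hxz
    · have h1 := hd2 x (hsub3 hx)
      have h2 := hd2 z (hsub3 hz)
      have h3 := nsub (X := Es n →L[ℝ] Es n →L[ℝ] ℝ) h1 h2
      nlinarith
    · set g : Es n := z - x with hg
      have hg1 : ‖g‖ < 1 := by rw [hg, norm_sub_rev]; exact hxz
      have hgn : ‖g‖ = ‖x - z‖ := by rw [hg, norm_sub_rev]
      have hin : ∀ t ∈ ball (0 : Es n) (R + 3), t ∈ ball (0 : Es n) (R + 4) := fun t ht =>
        ball_subset_ball (by linarith) ht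
      have hing : ∀ t ∈ ball (0 : Es n) (R + 3), t + g ∈ ball (0 : Es n) (R + 4) := by
        intro t ht
        rw [mem_ball_zero_iff] at ht ⊢
        exact (norm_add_le _ _).trans_lt (by linarith)
      have hc1 : ContDiffOn ℝ 2 (fun t => U k (t + g)) (ball 0 (R + 3)) :=
        hcd.comp (contDiff_id.add contDiff_const).contDiffOn (fun t ht => hing t ht)
      have hc0' : ContDiffOn ℝ 2 (U k) (ball 0 (R + 3)) := hcd.mono fun t ht => hin t ht
      have ca : ∀ t ∈ ball (0 : Es n) (R + 3), ContDiffAt ℝ 2 (U k) t := fun t ht =>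
        hc0'.contDiffAt (isOpen_ball.mem_nhds ht)
      have ca' : ∀ t ∈ ball (0 : Es n) (R + 3), ContDiffAt ℝ 2 (fun t => U k (t + g)) t :=
        fun t ht => hc1.contDiffAt (isOpen_ball.mem_nhds ht)
      have hfd : ∀ t ∈ ball (0 : Es n) (R + 3), fderiv ℝ (fun t => U k (t + g) - U k t) t
          = fderiv ℝ (U k) (t + g) - fderiv ℝ (U k) t := by
        intro t ht
        rw [fderiv_fun_sub ((ca' t ht).differentiableAt (by norm_num))
          ((ca t ht).differentiableAt (by norm_num)), fderiv_comp_add]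
      have hm0 : 0 ≤ (K4 + K5) * ‖g‖ := by positivity
      have key := hs4 (fun t => U k (t + g) - U k t) R ((K4 + K5) * ‖g‖) (hc1.sub hc0') hm0
        (fun t ht => by
          rw [hfd t ht]
          have h1 := hk4.lip _ (hing t ht) _ (hin t ht)
          rw [add_sub_cancel_left] at h1
          have : 0 ≤ K5 * ‖g‖ := by positivity
          linarith)
        (fun t ht t' ht' => by
          have el : ∀ s ∈ ball (0 : Es n) (R + 3),
              Laplacian.laplacian (fun t => U k (t + g) - U k t) s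
              = -((‖y k + lam k • (s + g)‖ ^ A * V k (s + g) ^ p)
                - (‖y k + lam k • s‖ ^ A * V k s ^ p)) := by
            intro s hs
            have e1 := (ca' s hs).laplacian_sub (ca s hs)
            have e2 := h.eU k _ (hsub (hing s hs))
            have e3 := h.eU k _ (hsub (hin s hs))
            rw [lap_comp_add] at e1
            have e4 : Laplacian.laplacian (fun t => U k (t + g) - U k t) s
                = Laplacian.laplacian (U k) (s + g) - Laplacian.laplacian (U k) s := e1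
            rw [e4]
            linarith
          rw [el t ht, el t' ht']
          set F : Es n → ℝ := fun z => ‖y k + lam k • z‖ ^ A * V k z ^ p with hF
          have hphi : ∀ s ∈ ball (0 : Es n) (R + 3),
              HasFDerivAt (fun s => F (s + g) - F s) (fderiv ℝ F (s + g) - fderiv ℝ F s) s := by
            intro s hs
            have d1 : HasFDerivAt (fun s => F (s + g)) (fderiv ℝ F (s + g)) s := by
              exact (hasFDerivAt_comp_add_right g).2 (hk5.df _ (hing s hs)).hasFDerivAt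
            exact d1.sub (hk5.df _ (hin s hs)).hasFDerivAt
          have l1 := lip_of_gr (f := fun s => F (s + g) - F s) (K := K5 * ‖g‖)
            (convex_ball (0 : Es n) (R + 3))
            (fun s hs => (hphi s hs).differentiableAt) (fun s hs => by
              rw [(hphi s hs).fderiv]
              have := hk5.lip _ (hing s hs) _ (hin s hs)
              rwa [add_sub_cancel_left] at this) ht ht'
          have e5 : -(F (t + g) - F t) - -(F (t' + g) - F t')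
              = -((F (t + g) - F t) - (F (t' + g) - F t')) := by ring
          show |-(F (t + g) - F t) - -(F (t' + g) - F t')| ≤ _
          rw [e5, abs_neg]
          refine l1.trans (mul_le_mul_of_nonneg_right ?_ (norm_nonneg _))
          have : 0 ≤ K4 * ‖g‖ := by positivity
          linarith)
      have hx3 : x ∈ ball (0 : Es n) (R + 3) := ball_subset_ball (by linarith) hx
      have hdw : HasFDerivAt (fderiv ℝ (fun t => U k (t + g) - U k t))
          (fderiv ℝ (fderiv ℝ (U k)) z - fderiv ℝ (fderiv ℝ (U k)) x) x := by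
        have d0 : HasFDerivAt (fun t => fderiv ℝ (U k) (t + g))
            (fderiv ℝ (fderiv ℝ (U k)) (x + g)) x :=
          (hasFDerivAt_comp_add_right g).2 (hdd _ (hing x hx3)).hasFDerivAt
        have d1 := d0.sub (hdd _ (hin x hx3)).hasFDerivAt
        rw [hg, add_sub_cancel] at d1
        refine d1.congr_of_eventuallyEq ?_
        filter_upwards [isOpen_ball.mem_nhds hx3] with t ht
        rw [hfd t ht, hg]
        rfl
      have h9 := hdw.le_of_lip' (C := C * ((K4 + K5) * ‖g‖)) (by positivity) (by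
        filter_upwards [isOpen_ball.mem_nhds hx] with t ht
        exact key t ht x hx)
      rw [norm_sub_rev] at h9
      rw [hgn] at h9
      have : 0 ≤ K4 * ‖x - z‖ := by positivity
      nlinarith

end Seq

end Vale.Agent.P100.H115
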